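import Vale.Agent.P181.Layer

/-!
P181: the Fischer pairing, and homogeneity of substitutions.
-/

namespace Vale.Agent.P181

open MvPolynomial

/-- Substituting homogeneous polynomials for the variables preserves weighted homogeneity. -/
lemma isWeightedHomogeneous_aeval {σ τ M N : Type*} [AddCommMonoid M] [AddCommMonoid N]
    {w : σ → M} {w' : τ → N} (φ : M →+ N) {g : σ → MvPolynomial τ ℂ}
    (hg : ∀ x, IsWeightedHomogeneous w' (g x) (φ (w x)))
    {p : MvPolynomial σ ℂ} {v : M} (hp : IsWeightedHomogeneous w p v) :
    IsWeightedHomogeneous w' (aeval g p) (φ v) := by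
  rw [p.as_sum, map_sum]
  refine Submodule.sum_mem (weightedHomogeneousSubmodule ℂ w' (φ v)) fun d hd => ?_
  rw [aeval_monomial, ← Algebra.smul_def]
  refine Submodule.smul_mem _ _ ?_
  rw [mem_weightedHomogeneousSubmodule, Finsupp.prod, ← hp (mem_support_iff.1 hd),
    Finsupp.weight_apply, Finsupp.sum, map_sum]
  refine IsWeightedHomogeneous.prod _ _ _ fun x _ => ?_
  rw [map_nsmul]
  exact (hg x).pow _

variable {σ τ : Type*} [Fintype σ] [Fintype τ]

/-- The product of the factorials of the exponents. -/
def expFact (d : σ →₀ ℕ) : ℕ := ∏ x, Nat.factorial (d x)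

/-- The Fischer pairing, bilinear, without conjugation. -/
noncomputable def fischer (P : MvPolynomial σ ℂ) : MvPolynomial σ ℂ →ₗ[ℂ] ℂ :=
  (basisMonomials σ ℂ).constr ℂ fun d => (expFact d : ℂ) * coeff d P

lemma fischer_monomial (P : MvPolynomial σ ℂ) (d : σ →₀ ℕ) (c : ℂ) :
    fischer P (monomial d c) = c * ((expFact d : ℂ) * coeff d P) := by
  have h : monomial d c = c • basisMonomials σ ℂ d := by
    rw [coe_basisMonomials, smul_monomial, smul_eq_mul, mul_one]
  rw [h, map_smul, fischer, Module.Basis.constr_basis, smul_eq_mul]

lemma fischer_add (P Q G : MvPolynomial σ ℂ) :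
    fischer (P + Q) G = fischer P G + fischer Q G := by
  induction G using MvPolynomial.induction_on' with
  | monomial d c => simp only [fischer_monomial, coeff_add]; ring
  | add p q hp hq => simp only [map_add, hp, hq]; ring

lemma fischer_zero (G : MvPolynomial σ ℂ) : fischer (0 : MvPolynomial σ ℂ) G = 0 := by
  induction G using MvPolynomial.induction_on' with
  | monomial d c => simp [fischer_monomial]
  | add p q hp hq => simp [map_add, hp, hq]

lemma fischer_sum {ι : Type*} (s : Finset ι) (P : ι → MvPolynomial σ ℂ) (G : MvPolynomial σ ℂ) :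
    fischer (∑ i ∈ s, P i) G = ∑ i ∈ s, fischer (P i) G := by
  classical
  induction s using Finset.induction_on with
  | empty => simp [fischer_zero]
  | insert i s hi ih => rw [Finset.sum_insert hi, Finset.sum_insert hi, fischer_add, ih]

lemma fischer_mul_X (P Q : MvPolynomial σ ℂ) (s : σ) :
    fischer P (Q * X s) = fischer (pderiv s P) Q := by
  classical
  induction Q using MvPolynomial.induction_on' with
  | add p q hp hq => simp only [add_mul, map_add, hp, hq]
  | monomial d c =>
    rw [X, monomial_mul, mul_one, fischer_monomial, fischer_monomial, coeff_pderiv]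
    have : (expFact (d + Finsupp.single s 1) : ℂ) = (expFact d : ℂ) * ((d s : ℂ) + 1) := by
      rw [expFact, expFact, ← Finset.mul_prod_erase Finset.univ _ (Finset.mem_univ s),
        ← Finset.mul_prod_erase Finset.univ (fun x => Nat.factorial (d x)) (Finset.mem_univ s)]
      rw [Finset.prod_congr rfl (fun x hx => by
        rw [Finsupp.add_apply, Finsupp.single_eq_of_ne (Finset.ne_of_mem_erase hx), add_zero])]
      rw [Finsupp.add_apply, Finsupp.single_eq_same, Nat.factorial_succ]
      push_cast
      ring
    rw [this]
    ring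

lemma fischer_rename (e : σ ≃ τ) (P G : MvPolynomial σ ℂ) :
    fischer (rename e P) (rename e G) = fischer P G := by
  induction G using MvPolynomial.induction_on' with
  | add p q hp hq => simp only [map_add, hp, hq]
  | monomial d c =>
    rw [rename_monomial, fischer_monomial, fischer_monomial,
      coeff_rename_mapDomain _ e.injective]
    congr 3
    rw [expFact, expFact, ← Equiv.prod_comp e]
    refine Finset.prod_congr rfl fun x _ => ?_
    rw [Finsupp.mapDomain_apply e.injective]

/-- Pairing with a homogeneous polynomial only sees that component. -/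
lemma fischer_component {M : Type*} [AddCommMonoid M] {w : σ → M} {v : M}
    (P : MvPolynomial σ ℂ) {G : MvPolynomial σ ℂ} (hG : IsWeightedHomogeneous w G v) :
    fischer (weightedHomogeneousComponent w v P) G = fischer P G := by
  classical
  rw [G.as_sum, map_sum, map_sum]
  refine Finset.sum_congr rfl fun d hd => ?_
  rw [fischer_monomial, fischer_monomial, coeff_weightedHomogeneousComponent,
    if_pos (hG (mem_support_iff.1 hd))]

lemma fischer_self_conj_ne_zero {P : MvPolynomial σ ℂ} (hP : P ≠ 0) :
    fischer P (map (starRingEnd ℂ) P) ≠ 0 := by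
  have h : fischer P (map (starRingEnd ℂ) P)
      = ((∑ d ∈ P.support, (expFact d : ℝ) * Complex.normSq (coeff d P) : ℝ) : ℂ) := by
    conv_lhs => arg 2; rw [P.as_sum, map_sum]
    rw [map_sum, Complex.ofReal_sum]
    refine Finset.sum_congr rfl fun d _ => ?_
    rw [map_monomial, fischer_monomial, Complex.ofReal_mul, Complex.normSq_eq_conj_mul_self,
      Complex.ofReal_natCast]
    ring
  rw [h, Complex.ofReal_ne_zero]
  refine ne_of_gt (Finset.sum_pos (fun d hd => ?_) (support_nonempty.2 hP))
  refine mul_pos ?_ (Complex.normSq_pos.2 (mem_support_iff.1 hd))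
  exact_mod_cast Finset.prod_pos fun x _ => Nat.factorial_pos _

end Vale.Agent.P181
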