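import Vale.Agent.P181.Divisible
import Vale.Agent.P181.Pairing

/-!
P181: the equivariant map `Sym^a (Sym^(qa)) → Sym^(qa) (Sym^a)` and its injectivity on the
forms divisible by `det ^ k`, `k ≥ 2 q - 3`.
-/

namespace Vale.Agent.P181

open MvPolynomial

variable {m n : ℕ}

lemma mem_symPow_iff {d : ℕ} {P : MvPolynomial (Fin m × Fin n) ℂ} :
    P ∈ symPow m n d ↔ IsWeightedHomogeneous (pointWeight m n) P (fun _ => d) ∧
      ∀ π, permPts π P = P := by
  simp [symPow, Submodule.mem_inf, Submodule.mem_iInf]

lemma isWeightedHomogeneous_pt {B : ℕ} {p : MvPolynomial (Fin n) ℂ} (hp : p ∈ forms n B)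
    (i : Fin m) : IsWeightedHomogeneous (pointWeight m n) (pt i p) (Pi.single i B) := by
  have h := isWeightedHomogeneous_aeval (w := (1 : Fin n → ℕ)) (w' := pointWeight m n)
    (AddMonoidHom.single (fun _ : Fin m => ℕ) i) (g := fun j => X (i, j))
    (fun j => isWeightedHomogeneous_X ℂ _ _) hp
  have e : pt (n := n) i = aeval fun j => X (i, j) := algHom_ext fun j => by simp
  rw [e]
  exact h

lemma isWeightedHomogeneous_permPts (π : Equiv.Perm (Fin m)) {d : ℕ}
    {P : MvPolynomial (Fin m × Fin n) ℂ}
    (hP : IsWeightedHomogeneous (pointWeight m n) P (fun _ => d)) :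
    IsWeightedHomogeneous (pointWeight m n) (permPts π P) (fun _ => d) := by
  let φ : (Fin m → ℕ) →+ (Fin m → ℕ) :=
    { toFun := fun f => f ∘ π.symm, map_zero' := rfl, map_add' := fun _ _ => rfl }
  have h := isWeightedHomogeneous_aeval φ (w' := pointWeight m n)
    (g := fun p => X (Prod.map π id p)) (fun p => ?_) hP
  · have e : permPts (n := n) π = aeval fun p => X (Prod.map π id p) :=
      algHom_ext fun p => by simp
    rw [e]
    exact h
  · convert isWeightedHomogeneous_X ℂ (pointWeight m n) _ using 1
    funext i
    show (Pi.single p.1 1 : Fin m → ℕ) (π.symm i) = (Pi.single (π p.1) 1 : Fin m → ℕ) i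
    simp [Pi.single_apply, Equiv.symm_apply_eq]

lemma isWeightedHomogeneous_act (g : Matrix (Fin n) (Fin n) ℂ) {v : Fin m → ℕ}
    {P : MvPolynomial (Fin m × Fin n) ℂ}
    (hP : IsWeightedHomogeneous (pointWeight m n) P v) :
    IsWeightedHomogeneous (pointWeight m n) (act g P) v := by
  have h := isWeightedHomogeneous_aeval (AddMonoidHom.id _) (w' := pointWeight m n)
    (g := fun p => ∑ l, C (g p.2 l) * X (p.1, l)) (fun p => ?_) hP
  · exact h
  · refine Submodule.sum_mem (weightedHomogeneousSubmodule ℂ (pointWeight m n) _) fun l _ => ?_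
    rw [mem_weightedHomogeneousSubmodule]
    have := (isWeightedHomogeneous_C (pointWeight m n) (g p.2 l)).mul
      (isWeightedHomogeneous_X ℂ (pointWeight m n) (p.1, l))
    simpa [pointWeight] using this

lemma component_act (g : Matrix (Fin n) (Fin n) ℂ) (v : Fin m → ℕ)
    (P : MvPolynomial (Fin m × Fin n) ℂ) :
    weightedHomogeneousComponent (pointWeight m n) v (act g P)
      = act g (weightedHomogeneousComponent (pointWeight m n) v P) := by
  classical
  induction P using MvPolynomial.induction_on' with
  | add p q hp hq => simp only [map_add, hp, hq]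
  | monomial d c =>
    have h := isWeightedHomogeneous_monomial (pointWeight m n) d c rfl
    have h' := isWeightedHomogeneous_act g h
    by_cases e : Finsupp.weight (pointWeight m n) d = v
    · rw [e] at h h'
      rw [h.weightedHomogeneousComponent_same, h'.weightedHomogeneousComponent_same]
    · rw [h.weightedHomogeneousComponent_ne _ (Ne.symm e),
        h'.weightedHomogeneousComponent_ne _ (Ne.symm e),
        map_zero]

lemma permPts_act (π : Equiv.Perm (Fin m)) (g : Matrix (Fin n) (Fin n) ℂ)
    (P : MvPolynomial (Fin m × Fin n) ℂ) : permPts π (act g P) = act g (permPts π P) := by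
  have h : (permPts π).comp (act g) = (act g).comp (permPts π) := by
    refine algHom_ext fun p => ?_
    simp [act, permPts]
  exact DFunLike.congr_fun h P

variable {a q : ℕ}

/-- The row of the `u`-th of `q * a` points. -/
def row (u : Fin (q * a)) : Fin a := (finProdFinEquiv.symm u).2

/-- Spread each point over its `q` copies. -/
noncomputable def spread (q a n : ℕ) :
    MvPolynomial (Fin a × Fin n) ℂ →ₐ[ℂ] MvPolynomial (Fin (q * a) × Fin n) ℂ :=
  aeval fun p => ∑ u ∈ Finset.univ.filter (fun u => row u = p.1), X (u, p.2)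

lemma spread_act (g : Matrix (Fin n) (Fin n) ℂ) (P : MvPolynomial (Fin a × Fin n) ℂ) :
    spread q a n (act g P) = act g (spread q a n P) := by
  have h : (spread q a n).comp (act g) = (act g).comp (spread q a n) := by
    refine algHom_ext fun p => ?_
    simp only [AlgHom.comp_apply, act, spread, aeval_X, map_sum, map_mul, aeval_C,
      algebraMap_eq, Finset.mul_sum]
    rw [Finset.sum_comm]
  exact DFunLike.congr_fun h P

lemma pderiv_spread (s : Fin (q * a) × Fin n) (P : MvPolynomial (Fin a × Fin n) ℂ) :
    pderiv s (spread q a n P) = spread q a n (pderiv (row s.1, s.2) P) := by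
  classical
  induction P using MvPolynomial.induction_on with
  | C c => simp [spread]
  | add p q hp hq => simp only [map_add, hp, hq]
  | mul_X p t hp =>
    have hX : pderiv s (spread q a n (X t)) = spread q a n (pderiv (row s.1, s.2) (X t)) := by
      rw [spread, aeval_X, map_sum, pderiv_X]
      by_cases ht : t = (row s.1, s.2)
      · subst ht
        rw [Pi.single_eq_same, map_one, Finset.sum_eq_single s.1]
        · simp
        · intro u _ hu
          rw [pderiv_X, Pi.single_eq_of_ne]
          intro e
          exact hu (congrArg Prod.fst e)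
        · simp
      · rw [Pi.single_eq_of_ne ht, map_zero]
        refine Finset.sum_eq_zero fun u hu => ?_
        rw [pderiv_X, Pi.single_eq_of_ne]
        intro e
        refine ht (Prod.ext ?_ (congrArg Prod.snd e :))
        rw [← (Finset.mem_filter.1 hu).2]
        exact congrArg row (congrArg Prod.fst e :)
    rw [map_mul, pderiv_mul, hp, hX, pderiv_mul, map_add, map_mul, map_mul]

lemma fischer_spread (P : MvPolynomial (Fin a × Fin n) ℂ)
    (G : MvPolynomial (Fin (q * a) × Fin n) ℂ) :
    fischer (spread q a n P) G = fischer P (rename (Prod.map row id) G) := by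
  induction G using MvPolynomial.induction_on generalizing P with
  | C c =>
    have h : coeff 0 (spread q a n P) = coeff 0 P := by
      induction P using MvPolynomial.induction_on with
      | C c => simp [spread]
      | add p q hp hq => simp only [map_add, coeff_add, hp, hq]
      | mul_X p t hp =>
        show constantCoeff (spread q a n (p * X t)) = constantCoeff (p * X t)
        simp [spread]
    rw [rename_C, C_apply, fischer_monomial, C_apply, fischer_monomial, h]
    simp [expFact]
  | add p p' hp hq => simp only [map_add, hp, hq]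
  | mul_X G s hG =>
    rw [fischer_mul_X, pderiv_spread, hG, map_mul, rename_X, fischer_mul_X]
    rfl

/-- The map of the theorem. -/
noncomputable def powerMapDual (q a : ℕ) :
    MvPolynomial (Fin a × Fin a) ℂ →ₗ[ℂ] MvPolynomial (Fin (q * a) × Fin a) ℂ :=
  (∑ π : Equiv.Perm (Fin (q * a)), (permPts π).toLinearMap).comp
    ((weightedHomogeneousComponent (pointWeight (q * a) a) (fun _ => a)).comp
      (spread q a a).toLinearMap)

lemma powerMapDual_act (g : Matrix (Fin a) (Fin a) ℂ) (P : MvPolynomial (Fin a × Fin a) ℂ) :
    powerMapDual q a (act g P) = act g (powerMapDual q a P) := by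
  simp only [powerMapDual, LinearMap.comp_apply, LinearMap.sum_apply, AlgHom.toLinearMap_apply,
    spread_act, component_act, map_sum, permPts_act]

lemma powerMapDual_mem (P : MvPolynomial (Fin a × Fin a) ℂ) :
    powerMapDual q a P ∈ symPow (q * a) a a := by
  rw [mem_symPow_iff]
  simp only [powerMapDual, LinearMap.comp_apply, LinearMap.sum_apply, AlgHom.toLinearMap_apply]
  refine ⟨?_, fun τ => ?_⟩
  · exact Submodule.sum_mem (weightedHomogeneousSubmodule ℂ _ _) fun π _ =>
      isWeightedHomogeneous_permPts π (weightedHomogeneousComponent_isWeightedHomogeneous _ _)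
  · rw [map_sum]
    refine Fintype.sum_equiv (Equiv.mulLeft τ) _ _ fun π => ?_
    simp only [permPts, rename_rename, Equiv.coe_mulLeft]
    rfl

lemma fischer_powerMapDual (P : MvPolynomial (Fin a × Fin a) ℂ)
    {f : MvPolynomial (Fin a) ℂ} (hf : f ∈ forms a a) :
    fischer (powerMapDual q a P) (∏ u, pt u f)
      = (Nat.factorial (q * a) : ℂ) * fischer P ((∏ i, pt i f) ^ q) := by
  simp only [powerMapDual, LinearMap.comp_apply, LinearMap.sum_apply, AlgHom.toLinearMap_apply,
    fischer_sum]
  have hG : IsWeightedHomogeneous (pointWeight (q * a) a) (∏ u, pt u f) (fun _ => a) := by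
    have h := IsWeightedHomogeneous.prod Finset.univ (fun u : Fin (q * a) => pt u f)
      (fun u => Pi.single u a) (fun u _ => isWeightedHomogeneous_pt hf u)
    rwa [Finset.univ_sum_single] at h
  have hrow : rename (Prod.map row id) (∏ u : Fin (q * a), pt u f)
      = (∏ i : Fin a, pt i f) ^ q := by
    rw [map_prod]
    simp only [rename_fst_pt]
    rw [← Equiv.prod_comp finProdFinEquiv, Fintype.prod_prod_type]
    simp [row, Equiv.symm_apply_apply]
  have hterm : ∀ π : Equiv.Perm (Fin (q * a)),
      fischer (permPts π (weightedHomogeneousComponent (pointWeight (q * a) a) (fun _ => a)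
        (spread q a a P))) (∏ u, pt u f) = fischer P ((∏ i, pt i f) ^ q) := by
    intro π
    conv_lhs => arg 2; rw [← permPts_prod π (fun _ => f)]
    have he : permPts (n := a) π = rename (π.prodCongr (Equiv.refl (Fin a))) := rfl
    rw [he, fischer_rename, fischer_component _ hG, fischer_spread, hrow]
  simp [hterm, Fintype.card_perm]

lemma source_sub {k : ℕ} {b : ℕ} {P Q : MvPolynomial (Fin a × Fin a) ℂ}
    (hP : P ∈ source a b k) (hQ : Q ∈ source a b k) : P - Q ∈ source a b k :=
  ⟨Submodule.sub_mem _ hP.1 hQ.1, dvd_sub hP.2 hQ.2⟩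

lemma source_conj {k : ℕ} {b : ℕ} {P : MvPolynomial (Fin a × Fin a) ℂ}
    (hP : P ∈ source a b k) : map (starRingEnd ℂ) P ∈ source a b k := by
  obtain ⟨h1, h2⟩ := hP
  rw [mem_symPow_iff] at h1
  refine ⟨mem_symPow_iff.2 ⟨fun d hd => ?_, fun π => ?_⟩, ?_⟩
  · refine h1.1 (fun h => hd ?_)
    rw [coeff_map, h, map_zero]
  · rw [permPts, ← map_rename]
    exact congrArg _ (h1.2 π)
  · have hdet : map (starRingEnd ℂ) (detPoly a) = detPoly a := by
      rw [detPoly, RingHom.map_det]
      congr 1
      ext i j : 1
      simp
    have := map_dvd (map (starRingEnd ℂ)) h2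
    rwa [map_pow, hdet] at this

/-- Injectivity on the source. -/
theorem powerMapDual_injOn {k : ℕ} (ha : 2 ≤ a) (hq : 2 ≤ q) (hk : 2 * q ≤ k + 3) :
    Set.InjOn (powerMapDual q a) (source a (q * a) k) := by
  intro P hP Q hQ h
  by_contra hne
  have hX := source_sub hP hQ
  refine fischer_self_conj_ne_zero (sub_ne_zero.2 hne) ?_
  obtain ⟨h1, h2⟩ := source_conj hX
  rw [mem_symPow_iff] at h1
  have hmem := source_subset_powSpan ha hq hk h1.1 h1.2 h2
  refine LinearMap.mem_ker.1 ((Submodule.span_le.2 ?_) hmem)
  rintro _ ⟨f, hf, rfl⟩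
  rw [SetLike.mem_coe, LinearMap.mem_ker]
  have h0 := fischer_powerMapDual (q := q) (P - Q) hf
  rw [map_sub, h, sub_self, fischer_zero] at h0
  exact (mul_eq_zero.1 h0.symm).resolve_left
    (Nat.cast_ne_zero.2 (Nat.factorial_ne_zero _))

end Vale.Agent.P181
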