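import Vale.Agent.P181.CubicNorm
import Vale.Agent.P181.Embedding

/-!
P181: the equivariant map `Sym^a (Sym^b) → Sym^b (Sym^a)` (the transpose of multiplication
of the forms `∏_i y(v_i)`), and its injectivity for `b ≥ a * (a - 1) ^ 2`.
-/

namespace Vale.Agent.P181

open MvPolynomial

variable {a b n : ℕ}

/-- The linear form `∑_j c_j x_j`. -/
noncomputable def linForm (c : Fin n → ℂ) : MvPolynomial (Fin n) ℂ := ∑ j, c j • X j

lemma linForm_mem (c : Fin n → ℂ) : linForm c ∈ forms n 1 :=
  Submodule.sum_mem _ fun j _ => Submodule.smul_mem _ _ (isHomogeneous_X ℂ j)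

lemma exists_linForm {y : MvPolynomial (Fin n) ℂ} (hy : y ∈ forms n 1) :
    ∃ c, y = linForm c := by
  have h : y ∈ Submodule.span ℂ (Set.range (X : Fin n → MvPolynomial (Fin n) ℂ)) := by
    rw [← MvPolynomial.homogeneousSubmodule_one_eq_span_X]
    exact hy
  rw [Submodule.mem_span_range_iff_exists_fun] at h
  obtain ⟨c, hc⟩ := h
  exact ⟨c, hc.symm⟩

/-- The generating polynomial `∏_{u,i} (∑_j w_{u j} X_{i j})`. -/
noncomputable def kern (a b n : ℕ) :
    MvPolynomial (Fin a × Fin n) (MvPolynomial (Fin b × Fin n) ℂ) :=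
  ∏ u : Fin b, ∏ i : Fin a, ∑ j : Fin n, C (X (u, j)) * X (i, j)

/-- The transpose of multiplication. -/
noncomputable def multDual (a b n : ℕ) :
    MvPolynomial (Fin a × Fin n) ℂ →ₗ[ℂ] MvPolynomial (Fin b × Fin n) ℂ :=
  (basisMonomials (Fin a × Fin n) ℂ).constr ℂ fun d =>
    (expFact d : ℂ) • coeff d (kern a b n)

lemma multDual_monomial (d : Fin a × Fin n →₀ ℕ) (c : ℂ) :
    multDual a b n (monomial d c) = c • ((expFact d : ℂ) • coeff d (kern a b n)) := by
  have h : monomial d c = c • basisMonomials (Fin a × Fin n) ℂ d := by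
    rw [coe_basisMonomials, smul_monomial, smul_eq_mul, mul_one]
  rw [h, map_smul, multDual, Module.Basis.constr_basis]

/-- The value of `kern` at `w`. -/
noncomputable def kernAt (a : ℕ) (w : Fin b × Fin n → ℂ) : MvPolynomial (Fin a × Fin n) ℂ :=
  ∏ u : Fin b, allPts a (linForm fun j => w (u, j))

lemma map_kern (w : Fin b × Fin n → ℂ) : map (eval w) (kern a b n) = kernAt a w := by
  simp [kern, kernAt, allPts, linForm, map_prod, map_sum, pt, smul_eq_C_mul]

lemma fischer_monomial_left (d : Fin a × Fin n →₀ ℕ) (c : ℂ)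
    (G : MvPolynomial (Fin a × Fin n) ℂ) :
    fischer (monomial d c) G = c * ((expFact d : ℂ) * coeff d G) := by
  classical
  induction G using MvPolynomial.induction_on' with
  | monomial e r =>
    rw [fischer_monomial, coeff_monomial, coeff_monomial]
    by_cases h : d = e
    · subst h
      simp only [if_pos]
      ring
    · simp [h, Ne.symm h]
  | add p q hp hq => simp only [map_add, coeff_add, hp, hq]; ring

lemma eval_multDual (w : Fin b × Fin n → ℂ) (P : MvPolynomial (Fin a × Fin n) ℂ) :
    eval w (multDual a b n P) = fischer P (kernAt a w) := by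
  induction P using MvPolynomial.induction_on' with
  | monomial d c =>
    rw [multDual_monomial, fischer_monomial_left, ← map_kern, coeff_map, smul_eval, smul_eval]
  | add p q hp hq => rw [map_add, map_add, fischer_add, hp, hq]

lemma act_X (g : Matrix (Fin n) (Fin n) ℂ) (s : Fin a × Fin n) :
    act g (X s) = ∑ l, C (g s.2 l) * X (s.1, l) := by
  simp [act]

lemma pderiv_act (g : Matrix (Fin n) (Fin n) ℂ) (s : Fin a × Fin n)
    (P : MvPolynomial (Fin a × Fin n) ℂ) :
    pderiv s (act g P) = ∑ j, C (g j s.2) * act g (pderiv (s.1, j) P) := by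
  classical
  induction P using MvPolynomial.induction_on with
  | C c => simp [act]
  | add p q hp hq => simp only [map_add, hp, hq, mul_add, Finset.sum_add_distrib]
  | mul_X p t hp =>
    have hX : pderiv s (act g (X t)) = ∑ j, C (g j s.2) * act g (pderiv (s.1, j) (X t)) := by
      obtain ⟨s1, s2⟩ := s
      obtain ⟨t1, t2⟩ := t
      simp only [act_X, map_sum, pderiv_X, Pi.single_apply, Derivation.leibniz, pderiv_C,
        smul_zero, add_zero, Prod.mk.injEq, smul_eq_mul]
      by_cases h : t1 = s1
      · subst h
        simp [apply_ite (act g), mul_ite]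
      · simp [h, Ne.symm h]
    rw [map_mul, pderiv_mul, hp, hX, Finset.sum_mul, Finset.mul_sum, ← Finset.sum_add_distrib]
    refine Finset.sum_congr rfl fun j _ => ?_
    rw [pderiv_mul, map_add, map_mul, map_mul]
    ring

lemma fischer_C_mul (c : ℂ) (P G : MvPolynomial (Fin a × Fin n) ℂ) :
    fischer (C c * P) G = c * fischer P G := by
  induction G using MvPolynomial.induction_on' with
  | monomial d r => simp only [fischer_monomial, coeff_C_mul]; ring
  | add p q hp hq => simp only [map_add, hp, hq]; ring

lemma fischer_act (g : Matrix (Fin n) (Fin n) ℂ) (P G : MvPolynomial (Fin a × Fin n) ℂ) :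
    fischer (act g P) G = fischer P (act g.transpose G) := by
  induction G using MvPolynomial.induction_on generalizing P with
  | C c =>
    have h : coeff 0 (act g P) = coeff 0 P := by
      induction P using MvPolynomial.induction_on with
      | C c => simp [act]
      | add p q hp hq => simp only [map_add, coeff_add, hp, hq]
      | mul_X p t hp =>
        show constantCoeff (act g (p * X t)) = constantCoeff (p * X t)
        simp [act]
    have h2 : act g.transpose (C c : MvPolynomial (Fin a × Fin n) ℂ) = C c := by simp [act]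
    rw [h2, C_apply, fischer_monomial, fischer_monomial, h]
  | add p p' hp hq => simp only [map_add, hp, hq]
  | mul_X G s hG =>
    rw [fischer_mul_X, pderiv_act, fischer_sum, map_mul, act_X, Finset.mul_sum, map_sum]
    refine Finset.sum_congr rfl fun j _ => ?_
    rw [fischer_C_mul, hG, Matrix.transpose_apply, ← mul_assoc, fischer_mul_X,
      mul_comm (act g.transpose G), ← smul_eq_C_mul, map_smul, smul_eq_mul]

lemma act_kernAt (g : Matrix (Fin n) (Fin n) ℂ) (w : Fin b × Fin n → ℂ) :
    act g.transpose (kernAt a w)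
      = kernAt a (fun p => ∑ l, g p.2 l * w (p.1, l)) := by
  simp only [kernAt, allPts, map_prod]
  refine Finset.prod_congr rfl fun u _ => Finset.prod_congr rfl fun i _ => ?_
  simp only [linForm, map_sum, map_smul, pt, rename_X, act_X, Matrix.transpose_apply,
    Finset.sum_smul, Finset.smul_sum, smul_eq_C_mul, map_sum, map_mul, Finset.sum_mul,
    Finset.mul_sum]
  rw [Finset.sum_comm]
  refine Finset.sum_congr rfl fun j _ => Finset.sum_congr rfl fun l _ => ?_
  simp only [rename_C, act, aeval_C, algebraMap_eq]
  ring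

lemma eval_act (g : Matrix (Fin n) (Fin n) ℂ) (w : Fin b × Fin n → ℂ)
    (Q : MvPolynomial (Fin b × Fin n) ℂ) :
    eval w (act g Q) = eval (fun p => ∑ l, g p.2 l * w (p.1, l)) Q := by
  induction Q using MvPolynomial.induction_on with
  | C c => simp [act]
  | add p q hp hq => simp only [map_add, hp, hq]
  | mul_X p s hp => simp only [map_mul, hp, act_X, eval_sum, eval_C, eval_X]

theorem multDual_act (g : Matrix (Fin n) (Fin n) ℂ) (P : MvPolynomial (Fin a × Fin n) ℂ) :
    multDual a b n (act g P) = act g (multDual a b n P) := by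
  refine MvPolynomial.funext fun w => ?_
  rw [eval_multDual, eval_act, eval_multDual, fischer_act, act_kernAt]

/-- Polynomials all of whose coefficients are homogeneous of weight `v`. -/
def CoeffHom (v : Fin b → ℕ)
    (K : MvPolynomial (Fin a × Fin n) (MvPolynomial (Fin b × Fin n) ℂ)) : Prop :=
  ∀ d, IsWeightedHomogeneous (pointWeight b n) (coeff d K) v

lemma coeffHom_mul {v v' : Fin b → ℕ}
    {K K' : MvPolynomial (Fin a × Fin n) (MvPolynomial (Fin b × Fin n) ℂ)}
    (h : CoeffHom v K) (h' : CoeffHom v' K') : CoeffHom (v + v') (K * K') := by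
  intro d
  classical
  rw [coeff_mul]
  exact Submodule.sum_mem (weightedHomogeneousSubmodule ℂ (pointWeight b n) (v + v'))
    fun x _ => (h x.1).mul (h' x.2)

lemma coeffHom_prod {ι : Type*} (s : Finset ι) (v : ι → Fin b → ℕ)
    (K : ι → MvPolynomial (Fin a × Fin n) (MvPolynomial (Fin b × Fin n) ℂ))
    (h : ∀ i ∈ s, CoeffHom (v i) (K i)) : CoeffHom (∑ i ∈ s, v i) (∏ i ∈ s, K i) := by
  classical
  induction s using Finset.induction_on with
  | empty =>
    intro d
    rw [Finset.prod_empty, Finset.sum_empty, coeff_one]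
    split_ifs
    · exact isWeightedHomogeneous_one _ _
    · exact isWeightedHomogeneous_zero _ _ _
  | insert i s hi ih =>
    rw [Finset.prod_insert hi, Finset.sum_insert hi]
    exact coeffHom_mul (h i (Finset.mem_insert_self i s))
      (ih fun k hk => h k (Finset.mem_insert_of_mem hk))

lemma coeffHom_kern (a b n : ℕ) : CoeffHom (fun _ => a) (kern a b n) := by
  classical
  have h1 : ∀ (u : Fin b) (i : Fin a),
      CoeffHom (Pi.single u 1) (∑ j : Fin n, (C (X (u, j)) * X (i, j) :
        MvPolynomial (Fin a × Fin n) (MvPolynomial (Fin b × Fin n) ℂ))) := by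
    intro u i d
    rw [coeff_sum]
    refine Submodule.sum_mem (weightedHomogeneousSubmodule ℂ (pointWeight b n) _) fun j _ => ?_
    rw [coeff_C_mul, coeff_X]
    split_ifs
    · rw [mul_one]
      exact isWeightedHomogeneous_X ℂ (pointWeight b n) (u, j)
    · rw [mul_zero]
      exact zero_mem _
  have h := coeffHom_prod Finset.univ (fun u => ∑ _i : Fin a, Pi.single u 1) _
    fun u _ => coeffHom_prod Finset.univ (fun _ => Pi.single u 1) _ fun i _ => h1 u i
  have e : (∑ u : Fin b, ∑ _i : Fin a, (Pi.single u 1 : Fin b → ℕ)) = fun _ => a := by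
    funext x
    simp [Finset.sum_apply, Pi.single_apply]
  rw [e] at h
  exact h

theorem multDual_mem (P : MvPolynomial (Fin a × Fin n) ℂ) :
    multDual a b n P ∈ symPow b n a := by
  induction P using MvPolynomial.induction_on' with
  | add p q hp hq => rw [map_add]; exact Submodule.add_mem _ hp hq
  | monomial d c =>
    rw [multDual_monomial]
    refine Submodule.smul_mem _ _ (Submodule.smul_mem _ _ ?_)
    rw [mem_symPow_iff]
    refine ⟨coeffHom_kern a b n d, fun π => ?_⟩
    have h : map (permPts (n := n) π).toRingHom (kern a b n) = kern a b n := by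
      simp only [kern, map_prod, map_sum, map_mul, map_C, map_X]
      refine Fintype.prod_equiv π _ _ fun u => ?_
      simp
    conv_rhs => rw [← h, coeff_map]
    rfl

theorem multDual_injOn (hb : a * (a - 1) ^ 2 ≤ b) :
    Set.InjOn (multDual a b n) (symPow a n b : Set (MvPolynomial (Fin a × Fin n) ℂ)) := by
  intro P hP Q hQ h
  by_contra hne
  have hX : P - Q ∈ symPow a n b := Submodule.sub_mem _ hP hQ
  refine fischer_self_conj_ne_zero (sub_ne_zero.2 hne) ?_
  rw [mem_symPow_iff] at hX
  have hhom : IsWeightedHomogeneous (pointWeight a n) (map (starRingEnd ℂ) (P - Q))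
      (fun _ => b) := fun d hd => hX.1 fun h => hd (by rw [coeff_map, h, map_zero])
  have hsym : ∀ π, permPts π (map (starRingEnd ℂ) (P - Q)) = map (starRingEnd ℂ) (P - Q) := by
    intro π
    rw [permPts, ← map_rename]
    exact congrArg _ (hX.2 π)
  have hmem := symm_mem_linSpan_pow hb (mem_prodForms_of_isWeightedHomogeneous hhom) hsym
  have hzero : ∀ w, fischer (P - Q) (kernAt (b := b) a w) = 0 := by
    intro w
    rw [← eval_multDual, map_sub, h, sub_self, map_zero]
  refine LinearMap.mem_ker.1 ?_
  rw [linSpan, Submodule.span_pow] at hmem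
  refine (Submodule.span_le.2 ?_) hmem
  intro G hG
  rw [Set.mem_pow] at hG
  obtain ⟨f, rfl⟩ := hG
  choose y hy hfy using fun t => (f t).2
  choose c hc using fun t => exists_linForm (hy t)
  have e : (List.ofFn fun t => (f t : MvPolynomial (Fin a × Fin n) ℂ)).prod
      = kernAt a (fun p : Fin b × Fin n => c p.1 p.2) := by
    rw [List.prod_ofFn, kernAt]
    exact Finset.prod_congr rfl fun t _ => by rw [hfy t, hc t]
  rw [SetLike.mem_coe, LinearMap.mem_ker, e]
  exact hzero _

end Vale.Agent.P181
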