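import Vale.Agent.P181.Spans

/-!
P181: the span `powSpan m n e d` of `∏ f(v_i)^d`, `f` of degree `e`, and the layer lemma:
a symmetric form of degree `e` per point which vanishes whenever two points coincide
multiplies `powSpan m n e d` into `powSpan m n e (d + 1)`.
-/

namespace Vale.Agent.P181

open MvPolynomial

variable {m n : ℕ}

/-- Permute the points. -/
noncomputable abbrev permPts (π : Equiv.Perm (Fin m)) :
    MvPolynomial (Fin m × Fin n) ℂ →ₐ[ℂ] MvPolynomial (Fin m × Fin n) ℂ :=
  rename (Prod.map π id)

lemma rename_fst_pt {l : ℕ} (σ : Fin m → Fin l) (i : Fin m) (p : MvPolynomial (Fin n) ℂ) :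
    rename (Prod.map σ id) (pt i p) = pt (σ i) p := by
  rw [pt, rename_rename]
  rfl

lemma permPts_prod (π : Equiv.Perm (Fin m)) (g : Fin m → MvPolynomial (Fin n) ℂ) :
    permPts π (∏ i, pt i (g i)) = ∏ i, pt i (g (π.symm i)) := by
  rw [map_prod, ← Equiv.prod_comp π (fun i => pt i (g (π.symm i)))]
  refine Finset.prod_congr rfl fun i _ => ?_
  rw [permPts, rename_fst_pt, Equiv.symm_apply_apply]

/-- The span of `∏ f(v_i)^d`, `f` a form of degree `e`. -/
noncomputable def powSpan (m n e d : ℕ) : Submodule ℂ (MvPolynomial (Fin m × Fin n) ℂ) :=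
  Submodule.span ℂ {P | ∃ f ∈ forms n e, P = (∏ i, pt i f) ^ d}

lemma mem_powSpan {e d : ℕ} {f : MvPolynomial (Fin n) ℂ} (hf : f ∈ forms n e) :
    (∏ i : Fin m, pt i f) ^ d ∈ powSpan m n e d :=
  Submodule.subset_span ⟨f, hf, rfl⟩

/-- Symmetric forms are combinations of `∏ f(v_i)`. -/
theorem symm_mem_powSpan_one {B : ℕ} {P : MvPolynomial (Fin m × Fin n) ℂ}
    (hP : P ∈ prodForms m n Finset.univ B) (hsym : ∀ π, permPts π P = P) :
    P ∈ powSpan m n B 1 := by
  let S : MvPolynomial (Fin m × Fin n) ℂ →ₗ[ℂ] MvPolynomial (Fin m × Fin n) ℂ :=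
    ∑ π : Equiv.Perm (Fin m), (permPts π).toLinearMap
  have hS : ∀ Q ∈ prodForms m n Finset.univ B, S Q ∈ powSpan m n B 1 := by
    intro Q hQ
    induction hQ using Submodule.span_induction with
    | mem Q hQ =>
      obtain ⟨g, hg, rfl⟩ := hQ
      have h := polarize (fun i j : Fin m => pt i (g j))
      have e : S (∏ i, pt i (g i)) = ∑ π : Equiv.Perm (Fin m), ∏ i, pt i (g (π i)) := by
        rw [LinearMap.sum_apply]
        refine Fintype.sum_equiv (Equiv.inv (Equiv.Perm (Fin m))) _ _ fun π => ?_
        rw [AlgHom.toLinearMap_apply, permPts_prod]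
        rfl
      rw [e, ← h]
      refine Submodule.sum_mem _ fun T _ => zsmul_mem ?_ _
      simp_rw [← map_sum]
      simpa using mem_powSpan (m := m) (d := 1)
        (Submodule.sum_mem (forms n B) fun j (_ : j ∈ T) => hg j (Finset.mem_univ j))
    | zero => simp
    | add p q _ _ h1 h2 => rw [map_add]; exact Submodule.add_mem _ h1 h2
    | smul c p _ h => rw [map_smul]; exact Submodule.smul_mem _ c h
  have h1 : S P = (Nat.factorial m : ℂ) • P := by
    rw [LinearMap.sum_apply]
    simp [hsym, Fintype.card_perm, Nat.cast_smul_eq_nsmul]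
  have h2 := hS P hP
  rw [h1] at h2
  exact (Submodule.smul_mem_iff _ (Nat.cast_ne_zero.2 (Nat.factorial_ne_zero m))).1 h2

/-- The layer lemma. -/
theorem mul_mem_powSpan {e d : ℕ} {P : MvPolynomial (Fin m × Fin n) ℂ}
    (hP : P ∈ prodForms m n Finset.univ e) (hsym : ∀ π, permPts π P = P)
    (hvan : ∀ σ : Fin m → Fin m, ¬ Function.Bijective σ → rename (Prod.map σ id) P = 0)
    {w : MvPolynomial (Fin m × Fin n) ℂ} (hw : w ∈ powSpan m n e d) :
    P * w ∈ powSpan m n e (d + 1) := by
  classical
  induction hw using Submodule.span_induction with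
  | zero => simp
  | add p q _ _ h1 h2 => rw [mul_add]; exact Submodule.add_mem _ h1 h2
  | smul c p _ h => rw [mul_smul_comm]; exact Submodule.smul_mem _ c h
  | mem w hw =>
    obtain ⟨f, hf, rfl⟩ := hw
    let ι := Fin m × Fin (d + 1)
    let SS := {S : Finset ι // S.card = m}
    let en : ∀ S : SS, Fin m ≃ (S.1 : Finset ι) := fun S =>
      (Finset.equivFinOfCardEq S.2).symm
    let σ : SS → Fin m → Fin m := fun S i => (en S i).1.1
    let rest : SS → MvPolynomial (Fin m × Fin n) ℂ := fun S => ∏ x ∈ S.1ᶜ, pt x.1 f
    let Ψ : MvPolynomial (Fin m × Fin n) ℂ →ₗ[ℂ] MvPolynomial (Fin m × Fin n) ℂ :=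
      ∑ S : SS, (LinearMap.mulRight ℂ (rest S)).comp
        (rename (Prod.map (σ S) (id : Fin n → Fin n))).toLinearMap
    have hΨ : Ψ P ∈ powSpan m n e (d + 1) := by
      have hP1 := symm_mem_powSpan_one hP hsym
      clear hsym hvan hP
      induction hP1 using Submodule.span_induction with
      | zero => simp
      | add p q _ _ h1 h2 => rw [map_add]; exact Submodule.add_mem _ h1 h2
      | smul c p _ h => rw [map_smul]; exact Submodule.smul_mem _ c h
      | mem Q hQ =>
        obtain ⟨g, hg, rfl⟩ := hQ
        let p : Polynomial (MvPolynomial (Fin m × Fin n) ℂ) :=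
          ∏ x : ι, (Polynomial.X * Polynomial.C (pt x.1 g) + Polynomial.C (pt x.1 f))
        have hmem : p.coeff m ∈ powSpan m n e (d + 1) := by
          refine coeff_mem_of_eval_mem _ _ (fun c => ?_) _
          refine Submodule.subset_span ⟨c • g + f,
            Submodule.add_mem _ (Submodule.smul_mem _ c hg) hf, ?_⟩
          rw [Polynomial.eval_prod, Fintype.prod_prod_type, ← Finset.prod_pow]
          refine Finset.prod_congr rfl fun i _ => ?_
          dsimp only
          rw [Finset.prod_const, Finset.card_univ, Fintype.card_fin, Polynomial.eval_add,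
            Polynomial.eval_mul, Polynomial.eval_C, Polynomial.eval_X, Polynomial.eval_C,
            map_add, map_smul, Algebra.smul_def]
        convert hmem using 1
        simp only [p]
        rw [Finset.prod_add, Polynomial.finsetSum_coeff, LinearMap.sum_apply]
        have ec : ∀ S : Finset ι, ((∏ x ∈ S, Polynomial.X * Polynomial.C (pt x.1 g)) *
            ∏ x ∈ Finset.univ \ S, Polynomial.C (pt x.1 f)).coeff m
            = if S.card = m then (∏ x ∈ S, pt x.1 g) * ∏ x ∈ Sᶜ, pt x.1 f else 0 := by
          intro S
          rw [Finset.prod_mul_distrib, Finset.prod_const, ← map_prod, ← map_prod, mul_assoc,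
            ← map_mul, Polynomial.coeff_X_pow_mul', ← Finset.compl_eq_univ_sdiff,
            Polynomial.coeff_C]
          by_cases h : S.card = m
          · simp [h]
          · rw [if_neg h]
            split_ifs <;> first | rfl | omega
        simp_rw [ec]
        rw [← Finset.sum_filter]
        refine Finset.sum_bij (fun S _ => S.1) (fun S _ => ?_)
          (fun S _ S' _ h => Subtype.ext h) (fun S hS => ?_) (fun S _ => ?_)
        · simp [S.2]
        · rw [Finset.mem_filter] at hS
          exact ⟨⟨S, hS.2⟩, Finset.mem_univ _, rfl⟩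
        · simp only [LinearMap.coe_comp, Function.comp_apply, AlgHom.toLinearMap_apply,
            LinearMap.mulRight_apply, rest, pow_one, map_prod, rename_fst_pt]
          congr 1
          rw [← Finset.prod_coe_sort S.1]
          exact Fintype.prod_equiv (en S) _ _ fun i => rfl
    let good : Finset SS := Finset.univ.filter fun S => Function.Bijective (σ S)
    have hval : Ψ P = (good.card : ℂ) • (P * (∏ i, pt i f) ^ d) := by
      rw [LinearMap.sum_apply, Nat.cast_smul_eq_nsmul, ← Finset.sum_const]
      rw [Finset.sum_filter]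
      refine Finset.sum_congr rfl fun S _ => ?_
      simp only [LinearMap.coe_comp, Function.comp_apply, AlgHom.toLinearMap_apply,
        LinearMap.mulRight_apply]
      split_ifs with hb
      · have e1 : rename (Prod.map (σ S) (id : Fin n → Fin n)) P = P :=
          hsym (Equiv.ofBijective _ hb)
        rw [e1]
        congr 1
        have hS : ∏ x ∈ S.1, pt x.1 f = ∏ i, pt i f := by
          rw [← Finset.prod_coe_sort S.1, ← Fintype.prod_bijective (σ S) hb
            (fun i => pt (σ S i) f) (fun i => pt i f) (fun i => rfl)]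
          exact (Fintype.prod_equiv (en S) _ _ fun i => rfl).symm
        have hall : (∏ x ∈ S.1, pt x.1 f) * rest S = (∏ i, pt i f) ^ (d + 1) := by
          rw [Finset.prod_mul_prod_compl, Fintype.prod_prod_type, ← Finset.prod_pow]
          simp
        rw [hS, pow_succ'] at hall
        by_cases h0 : (∏ i : Fin m, pt i f) = 0
        · obtain ⟨i, -, hi⟩ := Finset.prod_eq_zero_iff.1 h0
          rcases Nat.eq_zero_or_pos d with hd | hd
          · subst hd
            have : S.1ᶜ = ∅ := by
              rw [← Finset.card_eq_zero, Finset.card_compl, S.2]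
              simp [ι]
            simp [rest, this]
          · rw [h0, zero_pow (by omega)]
            obtain ⟨x, hx, hxi⟩ : ∃ x ∈ S.1ᶜ, x.1 = i := by
              by_contra hne
              simp only [Finset.mem_compl, not_exists, not_and, not_imp_not] at hne
              obtain ⟨k, hk⟩ := hb.2 i
              have hsub : ∀ l : Fin (d + 1), ((i, l) : ι) = (en S k).1 := by
                intro l
                have hl : ((i, l) : ι) ∈ S.1 := hne (i, l) rfl
                have h1 := hb.1 (a₁ := (en S).symm ⟨(i, l), hl⟩) (a₂ := k) (by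
                  rw [hk]; simp [σ])
                rw [← h1]; simp
              have := (hsub ⟨0, by omega⟩).trans (hsub ⟨1, by omega⟩).symm
              simp at this
            exact Finset.prod_eq_zero hx (by rw [hxi]; exact hi)
        · exact mul_left_cancel₀ h0 hall
      · rw [hvan _ hb, zero_mul]
    have hgood : good.card ≠ 0 := by
      let S0 : SS := ⟨Finset.univ.image (fun i : Fin m => ((i, 0) : ι)), by
        rw [Finset.card_image_of_injective _ (fun a b h => congrArg Prod.fst h)]; simp⟩
      refine Finset.card_ne_zero_of_mem (a := S0) ?_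
      simp only [good, Finset.mem_filter, Finset.mem_univ, true_and]
      refine Finite.surjective_iff_bijective.1 fun i => ?_
      refine ⟨(en S0).symm ⟨(i, 0), Finset.mem_image_of_mem _ (Finset.mem_univ i)⟩, ?_⟩
      simp [σ]
    rw [hval] at hΨ
    exact (Submodule.smul_mem_iff _ (Nat.cast_ne_zero.2 hgood)).1 hΨ

end Vale.Agent.P181
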