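import Vale.Agent.P181.CubicStep
import Vale.Agent.P181.Layer

/-!
P181: every symmetric form of degree `b` in each of `m` points, `b ≥ m * (m - 1) ^ 2`, is a
combination of products of `b` forms `∏ y(v_i)`, `y` linear.
-/

namespace Vale.Agent.P181

open MvPolynomial

variable {m n : ℕ}

section Newton

variable {A : Type*} [CommRing A] [Algebra ℂ A]

/-- Newton: power sums from elementary symmetric functions, in a graded family. -/
lemma psum_mem_pow (E : Submodule ℂ A) (j m : ℕ) (W : Fin m → A)
    (he : ∀ k, aeval W (esymm (Fin m) ℂ k) ∈ E ^ (j * k)) :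
    ∀ k, aeval W (psum (Fin m) ℂ k) ∈ E ^ (j * k) := by
  intro k
  induction k using Nat.strong_induction_on with
  | _ k ih =>
    rcases Nat.eq_zero_or_pos k with rfl | hk
    · rw [psum_zero, map_natCast, mul_zero, pow_zero, ← map_natCast (algebraMap ℂ A)]
      exact Submodule.algebraMap_mem _
    · rw [psum_eq_mul_esymm_sub_sum _ _ _ hk, map_sub, map_sum]
      refine Submodule.sub_mem _ ?_ (Submodule.sum_mem _ fun a ha => ?_)
      · have : aeval W ((-1) ^ (k + 1) * (k : MvPolynomial (Fin m) ℂ) * esymm (Fin m) ℂ k)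
            = ((-1 : ℂ) ^ (k + 1) * k) • aeval W (esymm (Fin m) ℂ k) := by
          simp only [Algebra.smul_def, map_mul, map_pow, map_neg, map_one, map_natCast]
        rw [this]
        exact Submodule.smul_mem _ _ (he k)
      · rw [Finset.mem_filter, Finset.HasAntidiagonal.mem_antidiagonal] at ha
        obtain ⟨ha, ha1, ha2⟩ := ha
        have : aeval W ((-1) ^ a.1 * esymm (Fin m) ℂ a.1 * psum (Fin m) ℂ a.2)
            = ((-1 : ℂ) ^ a.1) • (aeval W (esymm (Fin m) ℂ a.1) * aeval W (psum (Fin m) ℂ a.2)) := by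
          simp only [Algebra.smul_def, map_mul, map_pow, map_neg, map_one, mul_assoc]
        rw [this]
        refine Submodule.smul_mem _ _ ?_
        rw [← ha, mul_add, pow_add]
        exact Submodule.mul_mem_mul (he _) (ih _ (by omega))

/-- Newton: elementary symmetric functions from power sums, in a graded family. -/
lemma esymm_mem_pow (E : Submodule ℂ A) (j m : ℕ) (W : Fin m → A)
    (hp : ∀ k, aeval W (psum (Fin m) ℂ k) ∈ E ^ (j * k)) :
    ∀ k, aeval W (esymm (Fin m) ℂ k) ∈ E ^ (j * k) := by
  intro k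
  induction k using Nat.strong_induction_on with
  | _ k ih =>
    rcases Nat.eq_zero_or_pos k with rfl | hk
    · rw [esymm_zero, map_one, mul_zero, pow_zero, ← map_one (algebraMap ℂ A)]
      exact Submodule.algebraMap_mem _
    · have hne : (k : ℂ) ≠ 0 := Nat.cast_ne_zero.2 (by omega)
      rw [← Submodule.smul_mem_iff _ hne]
      have : (k : ℂ) • aeval W (esymm (Fin m) ℂ k)
          = aeval W ((k : MvPolynomial (Fin m) ℂ) * esymm (Fin m) ℂ k) := by
        simp only [Algebra.smul_def, map_mul, map_natCast]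
      rw [this, mul_esymm_eq_sum, map_mul, map_sum, Finset.mul_sum]
      refine Submodule.sum_mem _ fun a ha => ?_
      rw [Finset.mem_filter, Finset.HasAntidiagonal.mem_antidiagonal] at ha
      obtain ⟨ha, ha1⟩ := ha
      have : aeval W ((-1 : MvPolynomial (Fin m) ℂ) ^ (k + 1)) *
            aeval W ((-1) ^ a.1 * esymm (Fin m) ℂ a.1 * psum (Fin m) ℂ a.2)
          = ((-1 : ℂ) ^ (k + 1) * (-1) ^ a.1) •
            (aeval W (esymm (Fin m) ℂ a.1) * aeval W (psum (Fin m) ℂ a.2)) := by
        simp only [Algebra.smul_def, map_mul, map_pow, map_neg, map_one]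
        ring
      rw [this]
      refine Submodule.smul_mem _ _ ?_
      rw [← ha, mul_add, pow_add]
      exact Submodule.mul_mem_mul (ih _ (by omega)) (hp _)

end Newton

/-- `∏_i y(v_i)`. -/
noncomputable def allPts (m : ℕ) (y : MvPolynomial (Fin n) ℂ) :
    MvPolynomial (Fin m × Fin n) ℂ := ∏ i : Fin m, pt i y

/-- The span of `∏_i y(v_i)`, `y` linear. -/
noncomputable def linSpan (m n : ℕ) : Submodule ℂ (MvPolynomial (Fin m × Fin n) ℂ) :=
  Submodule.span ℂ {P | ∃ y ∈ forms n 1, P = allPts m y}

lemma allPts_mem {y : MvPolynomial (Fin n) ℂ} (hy : y ∈ forms n 1) :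
    allPts m y ∈ linSpan m n :=
  Submodule.subset_span ⟨y, hy, rfl⟩

/-- `∏_{k ≠ i} y(v_k)`. -/
noncomputable def otherPts (m : ℕ) (i : Fin m) (y : MvPolynomial (Fin n) ℂ) :
    MvPolynomial (Fin m × Fin n) ℂ := ∏ k ∈ Finset.univ.erase i, pt k y

lemma pt_mul_otherPts (i : Fin m) (y : MvPolynomial (Fin n) ℂ) :
    pt i y * otherPts m i y = allPts m y :=
  Finset.mul_prod_erase Finset.univ (fun k => pt k y) (Finset.mem_univ i)

lemma prod_otherPts {S : Finset (Fin m)} (hS : S.Nonempty) (y : MvPolynomial (Fin n) ℂ) :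
    ∏ i ∈ S, otherPts m i y = allPts m y ^ (S.card - 1) * ∏ i ∈ Sᶜ, pt i y := by
  induction hS using Finset.Nonempty.cons_induction with
  | singleton a => simp [otherPts, Finset.compl_singleton]
  | cons a S ha hS ih =>
    rw [Finset.prod_cons, ih, Finset.card_cons, Nat.add_sub_cancel]
    have h1 : pt a y * ∏ i ∈ (Finset.cons a S ha)ᶜ, pt i y = ∏ i ∈ Sᶜ, pt i y := by
      rw [Finset.cons_eq_insert, Finset.compl_insert]
      exact Finset.mul_prod_erase Sᶜ (fun k => pt k y) (Finset.mem_compl.2 ha)
    have hc : S.card - 1 + 1 = S.card := Nat.sub_add_cancel hS.card_pos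
    rw [← h1]
    calc otherPts m a y * (allPts m y ^ (S.card - 1) * (pt a y * _))
        = allPts m y ^ (S.card - 1) * (pt a y * otherPts m a y) *
            ∏ i ∈ (Finset.cons a S ha)ᶜ, pt i y := by ring
      _ = _ := by rw [pt_mul_otherPts, ← pow_succ, hc]

/-- Elementary symmetric functions of `x(v_i) ∏_{k ≠ i} y(v_k)`. -/
lemma esymm_shift_mem {x y : MvPolynomial (Fin n) ℂ} (hx : x ∈ forms n 1) (hy : y ∈ forms n 1)
    (k : ℕ) :
    aeval (fun i : Fin m => pt i x * otherPts m i y) (esymm (Fin m) ℂ k)
      ∈ linSpan m n ^ (1 * k) := by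
  rw [one_mul]
  rcases k with _ | k
  · rw [esymm_zero, map_one, pow_zero]
    exact Submodule.one_le.1 le_rfl
  rw [esymm, map_sum]
  simp only [map_prod, aeval_X]
  have e : ∀ S ∈ (Finset.univ : Finset (Fin m)).powersetCard (k + 1),
      ∏ i ∈ S, (pt i x * otherPts m i y)
        = allPts m y ^ k * ((∏ i ∈ S, pt i x) * ∏ i ∈ Sᶜ, pt i y) := by
    intro S hS
    rw [Finset.mem_powersetCard] at hS
    rw [Finset.prod_mul_distrib, prod_otherPts (Finset.card_pos.1 (by omega)), hS.2,
      Nat.add_sub_cancel]
    ring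
  rw [Finset.sum_congr rfl e, ← Finset.mul_sum, pow_succ]
  refine Submodule.mul_mem_mul ?_ ?_
  · exact Submodule.pow_mem_pow _ (allPts_mem hy) k
  · let p : Polynomial (MvPolynomial (Fin m × Fin n) ℂ) :=
      ∏ i : Fin m, (Polynomial.X * Polynomial.C (pt i x) + Polynomial.C (pt i y))
    have hp : p.coeff (k + 1) ∈ linSpan m n := by
      refine coeff_mem_of_eval_mem _ _ (fun c => ?_) _
      refine Submodule.subset_span ⟨c • x + y,
        Submodule.add_mem _ (Submodule.smul_mem _ c hx) hy, ?_⟩
      rw [Polynomial.eval_prod]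
      refine Finset.prod_congr rfl fun i _ => ?_
      rw [Polynomial.eval_add, Polynomial.eval_mul, Polynomial.eval_C, Polynomial.eval_X,
        Polynomial.eval_C, map_add, map_smul, Algebra.smul_def]
    convert hp using 1
    simp only [p]
    rw [Finset.prod_add, Polynomial.finsetSum_coeff]
    rw [Finset.powersetCard_eq_filter, Finset.sum_filter]
    refine Finset.sum_congr rfl fun S _ => ?_
    rw [Finset.prod_mul_distrib, Finset.prod_const, ← map_prod, ← map_prod,
      ← Finset.compl_eq_univ_sdiff, mul_assoc, ← map_mul, Polynomial.coeff_X_pow_mul',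
      Polynomial.coeff_C]
    rcases lt_trichotomy S.card (k + 1) with h | h | h
    · rw [if_neg h.ne, if_pos h.le, if_neg (by omega)]
    · rw [if_pos h, if_pos h.le, if_pos (by omega)]
    · rw [if_neg h.ne', if_neg (by omega)]

/-- The sum over the points of `u(v_i) ∏_{k ≠ i} y(v_k)^s`. -/
lemma sum_shift_mem {y : MvPolynomial (Fin n) ℂ} (hy : y ∈ forms n 1) (s : ℕ)
    {u : MvPolynomial (Fin n) ℂ} (hu : u ∈ forms n s) :
    ∑ i : Fin m, pt i u * otherPts m i y ^ s ∈ linSpan m n ^ s := by
  have h := forms_le_span_pow s hu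
  clear hu
  induction h using Submodule.span_induction with
  | mem u hu =>
    obtain ⟨x, hx, rfl⟩ := hu
    have := psum_mem_pow (linSpan m n) 1 m _ (esymm_shift_mem hx hy) s
    rw [one_mul, psum, map_sum] at this
    simpa [mul_pow] using this
  | zero => simp
  | add p q _ _ h1 h2 =>
    simp only [map_add, add_mul, Finset.sum_add_distrib]
    exact Submodule.add_mem _ h1 h2
  | smul c p _ h =>
    simp only [map_smul, smul_mul_assoc, ← Finset.smul_sum]
    exact Submodule.smul_mem _ c h

/-- A norm times a power of `∏ y(v_i)` is a combination of products of `∏ z(v_i)`. -/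
lemma norm_mul_mem {j : ℕ} {y g : MvPolynomial (Fin n) ℂ} (hy : y ∈ forms n 1)
    (hg : g ∈ forms n j) :
    allPts m y ^ ((m - 1) * j) * ∏ i : Fin m, pt i g ∈ linSpan m n ^ (j * m) := by
  have hp : ∀ k, aeval (fun i : Fin m => pt i g * otherPts m i y ^ j) (psum (Fin m) ℂ k)
      ∈ linSpan m n ^ (j * k) := by
    intro k
    rw [psum, map_sum]
    have := sum_shift_mem (m := m) hy (j * k) (forms_pow hg k)
    simpa [mul_pow, pow_mul] using this
  have h := esymm_mem_pow (linSpan m n) j m _ hp m
  have e : esymm (Fin m) ℂ m = ∏ i, X i := by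
    rw [esymm]
    have h1 := Finset.powersetCard_self (Finset.univ : Finset (Fin m))
    rw [Finset.card_univ, Fintype.card_fin] at h1
    rw [h1, Finset.sum_singleton]
  rw [e, map_prod] at h
  simp only [aeval_X] at h
  rw [Finset.prod_mul_distrib, Finset.prod_pow] at h
  rcases Nat.eq_zero_or_pos m with rfl | hm
  · simpa using h
  · have : Nonempty (Fin m) := ⟨⟨0, hm⟩⟩
    rw [prod_otherPts Finset.univ_nonempty, Finset.card_univ, Fintype.card_fin,
      Finset.compl_univ, Finset.prod_empty, mul_one, ← pow_mul] at h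
    rw [mul_comm (allPts m y ^ _)]
    exact h

/-- The symmetrisation. -/
noncomputable def symSum (m n : ℕ) :
    MvPolynomial (Fin m × Fin n) ℂ →ₗ[ℂ] MvPolynomial (Fin m × Fin n) ℂ :=
  ∑ π : Equiv.Perm (Fin m), (permPts π).toLinearMap

lemma permPts_allPts (π : Equiv.Perm (Fin m)) (y : MvPolynomial (Fin n) ℂ) :
    permPts π (allPts m y) = allPts m y := by
  rw [allPts, permPts_prod π (fun _ => y)]

lemma symSum_mul {u : MvPolynomial (Fin m × Fin n) ℂ} (hu : ∀ π, permPts π u = u)
    (p : MvPolynomial (Fin m × Fin n) ℂ) : symSum m n (u * p) = u * symSum m n p := by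
  simp only [symSum, LinearMap.sum_apply, AlgHom.toLinearMap_apply, map_mul, hu, Finset.mul_sum]

lemma symSum_fixed (τ : Equiv.Perm (Fin m)) (p : MvPolynomial (Fin m × Fin n) ℂ) :
    permPts τ (symSum m n p) = symSum m n p := by
  simp only [symSum, LinearMap.sum_apply, AlgHom.toLinearMap_apply, map_sum]
  refine Fintype.sum_equiv (Equiv.mulLeft τ) _ _ fun π => ?_
  simp only [permPts, rename_rename, Equiv.coe_mulLeft]
  rfl

lemma symSum_mem_prodForms {B : ℕ} {p : MvPolynomial (Fin m × Fin n) ℂ}
    (hp : p ∈ prodForms m n Finset.univ B) : symSum m n p ∈ prodForms m n Finset.univ B := by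
  induction hp using Submodule.span_induction with
  | zero => simp
  | add p1 p2 _ _ h1 h2 => rw [map_add]; exact Submodule.add_mem _ h1 h2
  | smul c p _ h => rw [map_smul]; exact Submodule.smul_mem _ c h
  | mem p hp =>
    obtain ⟨g, hg, rfl⟩ := hp
    rw [symSum, LinearMap.sum_apply]
    refine Submodule.sum_mem _ fun π _ => ?_
    rw [AlgHom.toLinearMap_apply, permPts_prod]
    exact mem_prodForms fun i _ => hg _ (Finset.mem_univ _)

lemma prod_allPts_mem : ∀ {i : ℕ} (z : Fin i → MvPolynomial (Fin n) ℂ),
    (∀ t, z t ∈ forms n 1) → ∏ t, allPts m (z t) ∈ linSpan m n ^ i := by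
  intro i
  induction i with
  | zero =>
    intro z _
    rw [Fin.prod_univ_zero, pow_zero]
    exact Submodule.one_le.1 le_rfl
  | succ i ih =>
    intro z hz
    rw [Fin.prod_univ_succ, pow_succ']
    exact Submodule.mul_mem_mul (allPts_mem (hz 0)) (ih _ fun t => hz t.succ)

/-- The main spanning theorem. -/
theorem symm_mem_linSpan_pow {b : ℕ} (hb : m * (m - 1) ^ 2 ≤ b)
    {P : MvPolynomial (Fin m × Fin n) ℂ} (hP : P ∈ prodForms m n Finset.univ b)
    (hsym : ∀ π, permPts π P = P) : P ∈ linSpan m n ^ b := by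
  set j := m - 1 with hj
  set M := j ^ 2 with hM
  have hMb : M + j ≤ b := by
    rcases Nat.lt_or_ge m 2 with h | h
    · have : j = 0 := by omega
      simp [hM, this]
    · have h1 : j * j ≥ j := Nat.le_mul_self j
      have h2 : 2 * j ^ 2 ≤ m * j ^ 2 := Nat.mul_le_mul_right _ h
      have h3 : m * j ^ 2 ≤ b := hb
      rw [sq] at h2 h3
      rw [hM, sq]
      omega
  obtain ⟨i, rfl⟩ : ∃ i, b = j + i + M := ⟨b - M - j, by omega⟩
  have hcard : (Finset.univ : Finset (Fin m)).card = m := by simp
  have h1 := prodForms_le_stepPow (Finset.univ : Finset (Fin m)) M (j + i)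
    (by rw [hcard]; exact hb) hP
  suffices key : symSum m n P ∈ linSpan m n ^ (j + i + M) by
    have h2 : symSum m n P = (Nat.factorial m : ℂ) • P := by
      simp [symSum, hsym, Fintype.card_perm, Nat.cast_smul_eq_nsmul]
    rw [h2] at key
    exact (Submodule.smul_mem_iff _ (Nat.cast_ne_zero.2 (Nat.factorial_ne_zero m))).1 key
  clear hsym hP
  induction h1 using Submodule.span_induction with
  | zero => simp
  | add p q _ _ h1 h2 => rw [map_add]; exact Submodule.add_mem _ h1 h2
  | smul c p _ h => rw [map_smul]; exact Submodule.smul_mem _ c h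
  | mem p hp =>
    obtain ⟨y, hy, p, hp, rfl⟩ := hp
    have hfix : ∀ π, permPts π (allPts m y ^ M) = allPts m y ^ M := fun π => by
      rw [map_pow, permPts_allPts]
    rw [show (∏ k : Fin m, pt k y) = allPts m y from rfl, symSum_mul hfix]
    have h2 := prodForms_le_iter (Finset.univ : Finset (Fin m)) (A := j) (by rw [hcard]; omega) i hp
    clear hp
    induction h2 using Submodule.span_induction with
    | zero => simp
    | add p q _ _ h1 h2 => rw [map_add, mul_add]; exact Submodule.add_mem _ h1 h2
    | smul c p _ h => rw [map_smul, mul_smul_comm]; exact Submodule.smul_mem _ c h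
    | mem p hp =>
      obtain ⟨z, hz, q, hq, rfl⟩ := hp
      have hprod : (∏ k : Fin m, pt k (∏ t, z t)) = ∏ t, allPts m (z t) := by
        simp only [allPts, map_prod]
        exact Finset.prod_comm
      rw [hprod, symSum_mul (fun π => by simp only [map_prod, permPts_allPts])]
      have hi := prod_allPts_mem (m := m) z hz
      have h3 := symm_mem_powSpan_one (symSum_mem_prodForms hq) fun π => symSum_fixed π q
      generalize symSum m n q = w at h3 ⊢
      clear hprod
      induction h3 using Submodule.span_induction with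
      | zero => simp
      | add p q _ _ h1 h2 =>
        rw [mul_add, mul_add]; exact Submodule.add_mem _ h1 h2
      | smul c p _ h =>
        rw [mul_smul_comm, mul_smul_comm]; exact Submodule.smul_mem _ c h
      | mem w hw =>
        obtain ⟨g, hg, rfl⟩ := hw
        have hn := norm_mul_mem (m := m) hy hg
        have e : j + i + M = j * m + i := by
          rcases Nat.eq_zero_or_pos m with h0 | h0
          · have : j = 0 := by omega
            simp [hM, this]
          · obtain ⟨c, rfl⟩ : ∃ c, m = c + 1 := ⟨m - 1, by omega⟩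
            simp only [hM, hj, Nat.add_sub_cancel]
            ring
        rw [e, pow_add, pow_one, hM, sq]
        have := Submodule.mul_mem_mul hn hi
        rw [← hj] at this
        convert this using 1
        ring

end Vale.Agent.P181
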