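import Vale.Agent.P181.Spans

/-!
P181: for `m` points and degree at least `m * M`, every product of forms factors through
`(∏ y(v_i)) ^ M`, `y` linear.
-/

namespace Vale.Agent.P181

open MvPolynomial

variable {m n : ℕ}

open Polynomial in
/-- Coefficient form of division by `(y + t x) ^ M`. -/
lemma divide_pow {A : Type*} [CommRing A] [Algebra ℂ A] (x y : A) (V : ℕ → Submodule ℂ A)
    (hx : ∀ i, ∀ v ∈ V i, x * v ∈ V (i + 1)) (hy : ∀ i, ∀ v ∈ V i, y * v ∈ V (i + 1)) :
    ∀ (M D : ℕ) (H : A[X]), (∀ k, D < k → H.coeff k = 0) →
      (∀ k, ((Polynomial.C y + Polynomial.X * Polynomial.C x) ^ M * H).coeff k ∈ V 0) →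
      ∀ i ≤ D, x ^ (M + i) * H.coeff (D - i) ∈ V i := by
  have hxp : ∀ (i : ℕ), ∀ v ∈ V 0, x ^ i * v ∈ V i := by
    intro i v hv
    induction i with
    | zero => simpa using hv
    | succ i ih => rw [pow_succ', mul_assoc]; exact hx i _ ih
  intro M
  induction M with
  | zero =>
    intro D H _ hG i _
    simp only [pow_zero, one_mul] at hG
    simpa using hxp i _ (hG (D - i))
  | succ M ih =>
    intro D H hH hG i hi
    set K := (Polynomial.C y + Polynomial.X * Polynomial.C x) * H with hKdef
    have hK : ∀ k, K.coeff (k + 1) = y * H.coeff (k + 1) + x * H.coeff k := by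
      intro k
      rw [hKdef, add_mul, Polynomial.coeff_add, Polynomial.coeff_C_mul, mul_assoc,
        Polynomial.coeff_X_mul, Polynomial.coeff_C_mul]
    have hKdeg : ∀ k, D + 1 < k → K.coeff k = 0 := by
      intro k hk
      obtain ⟨k, rfl⟩ : ∃ l, k = l + 1 := ⟨k - 1, by omega⟩
      rw [hK, hH _ (by omega), hH _ (by omega), mul_zero, mul_zero, add_zero]
    have hKG : ∀ k, ((Polynomial.C y + Polynomial.X * Polynomial.C x) ^ M * K).coeff k ∈ V 0 := by
      intro k
      rw [hKdef, ← mul_assoc, ← pow_succ]
      exact hG k
    have hIH := ih (D + 1) K hKdeg hKG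
    induction i with
    | zero =>
      have h := hIH 0 (by omega)
      rw [Nat.sub_zero, hK, hH _ (by omega), mul_zero, zero_add, ← mul_assoc, ← pow_succ] at h
      simpa using h
    | succ i ih2 =>
      have h := hIH (i + 1) (by omega)
      rw [show D + 1 - (i + 1) = (D - (i + 1)) + 1 by omega, hK,
        show D - (i + 1) + 1 = D - i by omega] at h
      have h2 := hy i _ (ih2 (by omega))
      have := Submodule.sub_mem _ h h2
      convert this using 1
      ring

/-- The span of `(∏_{i ∈ T} y(v_i)) ^ M * p`, `y` linear, `p ∈ prodForms T B`. -/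
noncomputable def stepPow (m n : ℕ) (T : Finset (Fin m)) (M B : ℕ) :
    Submodule ℂ (MvPolynomial (Fin m × Fin n) ℂ) :=
  Submodule.span ℂ {P | ∃ y ∈ forms n 1, ∃ p ∈ prodForms m n T B,
    P = (∏ i ∈ T, pt i y) ^ M * p}

/-- Degree `C + M ≥ |T| * M` factors through the `M`-th powers of `∏ y(v_i)`. -/
theorem prodForms_le_stepPow (T : Finset (Fin m)) (M : ℕ) :
    ∀ B : ℕ, T.card * M ≤ B + M → prodForms m n T (B + M) ≤ stepPow m n T M B := by
  classical
  induction T using Finset.induction_on with
  | empty =>
    intro B _
    refine Submodule.span_le.2 ?_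
    rintro _ ⟨g, _, rfl⟩
    have h1 := mem_prodForms (m := m) (n := n) (T := (∅ : Finset (Fin m))) (B := B)
      (g := fun _ => 0) (by simp)
    exact Submodule.subset_span ⟨0, zero_mem _, _, h1, by simp⟩
  | @insert r T hr ih =>
    intro B hB
    rw [Finset.card_insert_of_notMem hr, add_mul, one_mul] at hB
    refine Submodule.span_le.2 ?_
    rintro _ ⟨g, hg, rfl⟩
    rw [SetLike.mem_coe, Finset.prod_insert hr]
    set D := T.card * M with hD
    have hIH : (∏ i ∈ T, pt i (g i)) ∈ stepPow m n T M B :=
      ih B (by omega) (mem_prodForms fun i hi => hg i (Finset.mem_insert_of_mem hi))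
    have hu : g r ∈ Submodule.span ℂ
        {P | ∃ x ∈ forms n 1, ∃ h ∈ forms n (B - D), P = x ^ (M + D) * h} := by
      have h0 : g r ∈ Submodule.span ℂ
          {P | ∃ y : Fin (M + D + (B - D)) → MvPolynomial (Fin n) ℂ,
            (∀ t, y t ∈ forms n 1) ∧ P = ∏ t, y t} := by
        apply forms_le_span_prod
        rw [show M + D + (B - D) = B + M by omega]
        exact hg r (Finset.mem_insert_self r T)
      refine Submodule.span_le.2 ?_ h0
      rintro _ ⟨y, hy, rfl⟩
      rw [Fin.prod_univ_add, SetLike.mem_coe]
      have hh : (∏ t : Fin (B - D), y (Fin.natAdd (M + D) t)) ∈ forms n (B - D) := by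
        simpa using forms_prod Finset.univ (fun _ : Fin (B - D) => 1) _ (fun t _ => hy _)
      have h1 : (∏ t : Fin (M + D), y (Fin.castAdd (B - D) t)) ∈
          Submodule.span ℂ {P | ∃ x ∈ forms n 1, P = x ^ (M + D)} := by
        apply forms_le_span_pow
        simpa using forms_prod Finset.univ (fun _ : Fin (M + D) => 1) _ (fun t _ => hy _)
      generalize (∏ t : Fin (M + D), y (Fin.castAdd (B - D) t)) = P1 at h1 ⊢
      induction h1 using Submodule.span_induction with
      | mem p hp =>
        obtain ⟨x, hx, rfl⟩ := hp
        exact Submodule.subset_span ⟨x, hx, _, hh, rfl⟩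
      | zero => simp
      | add p q _ _ h1 h2 => rw [add_mul]; exact Submodule.add_mem _ h1 h2
      | smul c p _ h => rw [smul_mul_assoc]; exact Submodule.smul_mem _ c h
    generalize g r = u at hu ⊢
    generalize (∏ i ∈ T, pt i (g i)) = w at hIH ⊢
    induction hu using Submodule.span_induction generalizing w with
    | zero => simp
    | add p q _ _ h1 h2 =>
      rw [map_add, add_mul]; exact Submodule.add_mem _ (h1 w hIH) (h2 w hIH)
    | smul c p _ h => rw [map_smul, smul_mul_assoc]; exact Submodule.smul_mem _ c (h w hIH)
    | mem p hp =>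
      obtain ⟨x, hx, h, hh, rfl⟩ := hp
      unfold stepPow at hIH
      induction hIH using Submodule.span_induction with
      | zero => simp
      | add p q _ _ h1 h2 => rw [mul_add]; exact Submodule.add_mem _ h1 h2
      | smul c p _ h => rw [mul_smul_comm]; exact Submodule.smul_mem _ c h
      | mem w hw =>
        obtain ⟨y, hy, p, hp, rfl⟩ := hw
        let H : Polynomial (MvPolynomial (Fin m × Fin n) ℂ) :=
          (∏ i ∈ T, (Polynomial.C (pt i y) + Polynomial.X * Polynomial.C (pt i x))) ^ M
        have hdeg : H.natDegree ≤ D := by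
          refine Polynomial.natDegree_pow_le.trans ?_
          rw [hD, mul_comm T.card]
          refine Nat.mul_le_mul_left M ((Polynomial.natDegree_prod_le _ _).trans ?_)
          refine (Finset.sum_le_sum (g := fun _ => 1) fun i _ => ?_).trans (by simp)
          refine (Polynomial.natDegree_add_le _ _).trans ?_
          refine max_le (by simp) (Polynomial.natDegree_mul_le.trans ?_)
          simp
        have hH0 : H.coeff 0 = (∏ i ∈ T, pt i y) ^ M := by
          rw [Polynomial.coeff_zero_eq_eval_zero, Polynomial.eval_pow, Polynomial.eval_prod]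
          simp
        let V : ℕ → Submodule ℂ (MvPolynomial (Fin m × Fin n) ℂ) := fun i =>
          Submodule.span ℂ {P | ∃ l ∈ forms n 1, ∃ u ∈ forms n i,
            P = (∏ k ∈ insert r T, pt k l) ^ M * pt r u}
        have hmulV : ∀ z ∈ forms n 1, ∀ i, ∀ v ∈ V i, pt r z * v ∈ V (i + 1) := by
          intro z hz i v hv
          induction hv using Submodule.span_induction with
          | mem v hv =>
            obtain ⟨l, hl, u, hu, rfl⟩ := hv
            refine Submodule.subset_span ⟨l, hl, z * u, ?_, by rw [map_mul]; ring⟩
            simpa [add_comm] using forms_mul hz hu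
          | zero => simp
          | add p q _ _ h1 h2 => rw [mul_add]; exact Submodule.add_mem _ h1 h2
          | smul c p _ h => rw [mul_smul_comm]; exact Submodule.smul_mem _ c h
        have hG : ∀ k, ((Polynomial.C (pt r y) + Polynomial.X * Polynomial.C (pt r x)) ^ M
            * H).coeff k ∈ V 0 := by
          refine coeff_mem_of_eval_mem _ _ (fun c => ?_)
          refine Submodule.subset_span ⟨y + c • x,
            Submodule.add_mem _ hy (Submodule.smul_mem _ c hx), 1, forms_one_mem, ?_⟩
          simp only [H]
          rw [← mul_pow, ← Finset.prod_insert (f := fun i =>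
            (Polynomial.C (pt i y) + Polynomial.X * Polynomial.C (pt i x))) hr,
            Polynomial.eval_pow, Polynomial.eval_prod, map_one, mul_one]
          congr 1
          refine Finset.prod_congr rfl fun i _ => ?_
          rw [Polynomial.eval_add, Polynomial.eval_mul, Polynomial.eval_C, Polynomial.eval_X,
            Polynomial.eval_C, map_add, map_smul, Algebra.smul_def]
        have hV := divide_pow (pt r x) (pt r y) V (hmulV x hx) (hmulV y hy) M D H
          (fun k hk => Polynomial.coeff_eq_zero_of_natDegree_lt (lt_of_le_of_lt hdeg hk))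
          hG D le_rfl
        rw [Nat.sub_self, hH0] at hV
        have e : pt r (x ^ (M + D) * h) * ((∏ i ∈ T, pt i y) ^ M * p)
            = (pt r x ^ (M + D) * (∏ i ∈ T, pt i y) ^ M) * (pt r h * p) := by
          rw [map_mul, map_pow]; ring
        rw [e]
        generalize pt r x ^ (M + D) * (∏ i ∈ T, pt i y) ^ M = v at hV ⊢
        induction hV using Submodule.span_induction with
        | zero => simp
        | add p q _ _ h1 h2 => rw [add_mul]; exact Submodule.add_mem _ h1 h2
        | smul c p _ h => rw [smul_mul_assoc]; exact Submodule.smul_mem _ c h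
        | mem v hv =>
          obtain ⟨l, hl, u, hu, rfl⟩ := hv
          refine Submodule.subset_span ⟨l, hl, pt r (u * h) * p, prodForms_insert hr ?_ hp,
            by rw [map_mul]; ring⟩
          have := forms_mul hu hh
          rwa [show D + (B - D) = B by omega] at this

end Vale.Agent.P181
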