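import Mathlib

/-!
P181: definitions for the power-map theorem. A point is a row of a matrix of variables;
`X (i, j)` is the `j`-th coordinate of the `i`-th point.
-/

namespace Vale.Agent.P181

open MvPolynomial

/-- The weight recording, for each of the `m` points, the degree in that point. -/
def pointWeight (m n : ℕ) : Fin m × Fin n → (Fin m → ℕ) := fun p => Pi.single p.1 1

/-- Polynomials in `m` points of `ℂ^n`, invariant under permuting the points and homogeneous
of degree `d` in each point. This is the model of the symmetric power `Sym^m (Sym^d ℂ^n)`. -/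
noncomputable def symPow (m n d : ℕ) : Submodule ℂ (MvPolynomial (Fin m × Fin n) ℂ) :=
  weightedHomogeneousSubmodule ℂ (pointWeight m n) (fun _ => d) ⊓
    ⨅ π : Equiv.Perm (Fin m),
      LinearMap.eqLocus (rename (Prod.map π id) :
        MvPolynomial (Fin m × Fin n) ℂ →ₐ[ℂ] MvPolynomial (Fin m × Fin n) ℂ).toLinearMap
        LinearMap.id

/-- Simultaneous linear substitution of the coordinates of every point. -/
noncomputable def act {m n : ℕ} (g : Matrix (Fin n) (Fin n) ℂ) :
    MvPolynomial (Fin m × Fin n) ℂ →ₐ[ℂ] MvPolynomial (Fin m × Fin n) ℂ :=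
  aeval fun p => ∑ l, C (g p.2 l) * X (p.1, l)

/-- The determinant of the square matrix formed by `a` points of `ℂ^a`. -/
noncomputable def detPoly (a : ℕ) : MvPolynomial (Fin a × Fin a) ℂ :=
  (Matrix.of fun i j => X (i, j)).det

/-- The forms in `Sym^a (Sym^b ℂ^a)` divisible by the `k`-th power of the determinant. -/
noncomputable def source (a b k : ℕ) : Set (MvPolynomial (Fin a × Fin a) ℂ) :=
  {P | P ∈ symPow a a b ∧ detPoly a ^ k ∣ P}

end Vale.Agent.P181
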