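import Vale.Agent.P181.Layer

/-!
P181: symmetric forms of degree `q * a` per point divisible by `det ^ (2q - 3)` are
combinations of `∏ f(v_i)^q`, `f` of degree `a`.
-/

namespace Vale.Agent.P181

open MvPolynomial

variable {m n : ℕ}

lemma prodForms_mul {B C : ℕ} {p q : MvPolynomial (Fin m × Fin n) ℂ}
    (hp : p ∈ prodForms m n Finset.univ B) (hq : q ∈ prodForms m n Finset.univ C) :
    p * q ∈ prodForms m n Finset.univ (B + C) := by
  induction hp using Submodule.span_induction with
  | zero => simp
  | add p1 p2 _ _ h1 h2 => rw [add_mul]; exact Submodule.add_mem _ h1 h2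
  | smul c p _ h => rw [smul_mul_assoc]; exact Submodule.smul_mem _ c h
  | mem p hp =>
    obtain ⟨g, hg, rfl⟩ := hp
    induction hq using Submodule.span_induction with
    | zero => simp
    | add p1 p2 _ _ h1 h2 => rw [mul_add]; exact Submodule.add_mem _ h1 h2
    | smul c p _ h => rw [mul_smul_comm]; exact Submodule.smul_mem _ c h
    | mem q hq =>
      obtain ⟨g', hg', rfl⟩ := hq
      rw [← Finset.prod_mul_distrib]
      simp_rw [← map_mul]
      exact mem_prodForms fun i hi => forms_mul (hg i hi) (hg' i hi)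

lemma permPts_mem_prodForms (π : Equiv.Perm (Fin m)) {B : ℕ}
    {p : MvPolynomial (Fin m × Fin n) ℂ} (hp : p ∈ prodForms m n Finset.univ B) :
    permPts π p ∈ prodForms m n Finset.univ B := by
  induction hp using Submodule.span_induction with
  | zero => simp
  | add p1 p2 _ _ h1 h2 => rw [map_add]; exact Submodule.add_mem _ h1 h2
  | smul c p _ h => rw [map_smul]; exact Submodule.smul_mem _ c h
  | mem p hp =>
    obtain ⟨g, hg, rfl⟩ := hp
    rw [permPts_prod]
    exact mem_prodForms fun i _ => hg _ (Finset.mem_univ _)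

lemma weight_pointWeight (d : Fin m × Fin n →₀ ℕ) (i : Fin m) :
    Finsupp.weight (pointWeight m n) d i = ∑ j, d (i, j) := by
  rw [Finsupp.weight_apply, Finsupp.sum_fintype _ _ (fun p => by simp), Finset.sum_apply,
    Fintype.sum_prod_type, Finset.sum_eq_single i]
  · simp [pointWeight]
  · intro k _ hk
    simp [pointWeight, Ne.symm hk]
  · simp

/-- Multihomogeneous polynomials are combinations of products of forms. -/
lemma mem_prodForms_of_isWeightedHomogeneous {B : ℕ} {p : MvPolynomial (Fin m × Fin n) ℂ}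
    (hp : IsWeightedHomogeneous (pointWeight m n) p (fun _ => B)) :
    p ∈ prodForms m n Finset.univ B := by
  rw [p.as_sum]
  refine Submodule.sum_mem _ fun d hd => ?_
  rw [← mul_one (p.coeff d), ← smul_eq_mul, ← smul_monomial]
  refine Submodule.smul_mem _ _ ?_
  have h : (monomial d (1 : ℂ)) = ∏ i, pt i (∏ j, X j ^ d (i, j)) := by
    rw [monomial_eq, C_1, one_mul, Finsupp.prod_fintype _ _ (fun p => by simp),
      Fintype.prod_prod_type]
    simp [pt]
  rw [h]
  refine mem_prodForms fun i _ => ?_
  have h1 : ∑ j, d (i, j) = B := by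
    rw [← weight_pointWeight, hp (mem_support_iff.1 hd)]
  rw [← h1]
  exact IsHomogeneous.prod _ _ _ fun j _ => isHomogeneous_X_pow _ _

variable {a : ℕ}

lemma permPts_det (π : Equiv.Perm (Fin a)) :
    permPts π (detPoly a) = ((π.sign : ℤ) : MvPolynomial (Fin a × Fin a) ℂ) * detPoly a := by
  rw [detPoly, AlgHom.map_det, ← Matrix.det_permute π]
  congr 1
  ext i j
  simp [permPts]

lemma rename_det_eq_zero (σ : Fin a → Fin a) (h : ¬ Function.Bijective σ) :
    rename (Prod.map σ (id : Fin a → Fin a)) (detPoly a) = 0 := by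
  rw [detPoly, AlgHom.map_det]
  have h' : ¬ Function.Injective σ := fun hi => h (Finite.injective_iff_bijective.1 hi)
  simp only [Function.Injective, not_forall] at h'
  obtain ⟨i, k, hik, hne⟩ := h'
  refine Matrix.det_zero_of_row_eq hne ?_
  funext j
  simp [hik]

lemma detPoly_ne_zero (a : ℕ) : detPoly a ≠ 0 := by
  intro h
  have := congrArg (aeval (R := ℂ) fun p : Fin a × Fin a => if p.1 = p.2 then (1 : ℂ) else 0) h
  rw [detPoly, AlgHom.map_det, map_zero] at this
  have e : (aeval (R := ℂ) fun p : Fin a × Fin a => if p.1 = p.2 then (1 : ℂ) else 0).mapMatrix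
      (Matrix.of fun i j => X (i, j)) = 1 := by
    ext i j
    simp [Matrix.one_apply]
  rw [e, Matrix.det_one] at this
  exact one_ne_zero this

lemma isWeightedHomogeneous_det (a : ℕ) :
    IsWeightedHomogeneous (pointWeight a a) (detPoly a) (fun _ => 1) := by
  rw [detPoly, Matrix.det_apply]
  refine Submodule.sum_mem (weightedHomogeneousSubmodule ℂ (pointWeight a a) (fun _ => 1))
    fun π _ => ?_
  rw [Units.smul_def]
  apply zsmul_mem
  rw [mem_weightedHomogeneousSubmodule]
  have h := IsWeightedHomogeneous.prod Finset.univ (fun i : Fin a => (X (π i, i) :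
    MvPolynomial (Fin a × Fin a) ℂ)) (fun i => pointWeight a a (π i, i))
    (fun i _ => isWeightedHomogeneous_X ℂ _ _)
  convert h using 1
  · rfl
  show _ = ∑ i, (Pi.single (π i) 1 : Fin a → ℕ)
  rw [Equiv.sum_comp π (fun i => (Pi.single i 1 : Fin a → ℕ))]
  exact (Finset.univ_sum_single (fun _ : Fin a => (1 : ℕ))).symm

lemma detPoly_mem_prodForms (a : ℕ) : detPoly a ∈ prodForms a a Finset.univ 1 :=
  mem_prodForms_of_isWeightedHomogeneous (isWeightedHomogeneous_det a)

/-- Even powers of the determinant times `∏_i (y_1 ⋯ y_j)(v_i)`. -/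
lemma det_pow_mem_powSpan (ha : 2 ≤ a) (c : ℕ) :
    ∀ j : ℕ, j = c * (a - 2) + a → ∀ y : Fin j → MvPolynomial (Fin a) ℂ,
      (∀ t, y t ∈ forms a 1) →
      detPoly a ^ (2 * c) * ∏ i, pt i (∏ t, y t) ∈ powSpan a a a (c + 1) := by
  have hprod : ∀ {j : ℕ} (y : Fin j → MvPolynomial (Fin a) ℂ), (∀ t, y t ∈ forms a 1) →
      (∏ t, y t) ∈ forms a j := fun {j} y hy => by
    simpa using forms_prod Finset.univ (fun _ : Fin j => 1) y (fun t _ => hy t)
  induction c with
  | zero =>
    intro j hj y hy
    rw [mul_zero, pow_zero, one_mul, zero_add]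
    have hj' : j = a := by simpa using hj
    subst hj'
    simpa using mem_powSpan (m := j) (d := 1) (hprod y hy)
  | succ c ih =>
    intro j hj y hy
    obtain rfl : j = (a - 2) + (c * (a - 2) + a) := by rw [hj]; ring
    set h1 := ∏ t : Fin (a - 2), y (Fin.castAdd _ t) with hh1
    set h2 := ∏ t : Fin (c * (a - 2) + a), y (Fin.natAdd _ t) with hh2
    have hP : detPoly a ^ 2 * ∏ i, pt i h1 ∈ prodForms a a Finset.univ a := by
      have := prodForms_mul (prodForms_mul (detPoly_mem_prodForms a) (detPoly_mem_prodForms a))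
        (mem_prodForms (T := (Finset.univ : Finset (Fin a))) (g := fun _ => h1)
          (fun _ _ => hprod _ fun t => hy _))
      rw [← sq, show 1 + 1 + (a - 2) = a by omega] at this
      exact this
    have hsym : ∀ π, permPts π (detPoly a ^ 2 * ∏ i, pt i h1) = detPoly a ^ 2 * ∏ i, pt i h1 := by
      intro π
      rw [map_mul, map_pow, permPts_det, permPts_prod π (fun _ => h1), mul_pow, ← Int.cast_pow,
        ← Units.val_pow_eq_pow_val, Int.units_sq]
      simp
    have hvan : ∀ σ : Fin a → Fin a, ¬ Function.Bijective σ →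
        rename (Prod.map σ id) (detPoly a ^ 2 * ∏ i, pt i h1) = 0 := by
      intro σ hσ
      rw [map_mul, map_pow, rename_det_eq_zero σ hσ, zero_pow two_ne_zero, zero_mul]
    have := mul_mem_powSpan hP hsym hvan (ih _ rfl _ fun t => hy (Fin.natAdd _ t))
    rw [show ∏ i, pt i (∏ t, y t) = (∏ i, pt i h1) * ∏ i, pt i h2 by
      rw [← Finset.prod_mul_distrib]
      simp only [← map_mul, hh1, hh2, Fin.prod_univ_add]]
    rw [show detPoly a ^ (2 * (c + 1)) * ((∏ i, pt i h1) * ∏ i, pt i h2)
      = detPoly a ^ 2 * (∏ i, pt i h1) * (detPoly a ^ (2 * c) * ∏ i, pt i h2) by ring]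
    exact this

lemma isWeightedHomogeneous_of_mul {σ : Type*} {M : Type*} [AddCommMonoid M]
    [IsCancelAdd M] {w : σ → M} {D A : MvPolynomial σ ℂ} {u v : M} (hD0 : D ≠ 0)
    (hD : IsWeightedHomogeneous w D u) (h : IsWeightedHomogeneous w (D * A) (u + v)) :
    IsWeightedHomogeneous w A v := by
  classical
  set B := A - weightedHomogeneousComponent w v A with hB
  have hBv : weightedHomogeneousComponent w v B = 0 := by
    rw [hB, map_sub, (weightedHomogeneousComponent_isWeightedHomogeneous v A
      ).weightedHomogeneousComponent_same, sub_self]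
  have h' : IsWeightedHomogeneous w (D * B) (u + v) := by
    rw [hB, mul_sub]
    exact Submodule.sub_mem (weightedHomogeneousSubmodule ℂ w (u + v)) h
      (hD.mul (weightedHomogeneousComponent_isWeightedHomogeneous v A))
  suffices B = 0 by
    rw [sub_eq_zero.1 this]
    exact weightedHomogeneousComponent_isWeightedHomogeneous v A
  by_contra hne
  obtain ⟨d, hd⟩ := ne_zero_iff.1 hne
  set x := Finsupp.weight w d with hx
  have hxv : x ≠ v := by
    intro e
    have := congrArg (coeff d) hBv
    rw [coeff_weightedHomogeneousComponent, if_pos e, coeff_zero] at this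
    exact hd this
  have hcomp : weightedHomogeneousComponent w (u + x) (D * B)
      = D * weightedHomogeneousComponent w x B := by
    conv_lhs => rw [← sum_weightedHomogeneousComponent w B,
      finsum_eq_sum _ (weightedHomogeneousComponent_finsupp B), Finset.mul_sum, map_sum]
    rw [Finset.sum_eq_single x]
    · exact (hD.mul (weightedHomogeneousComponent_isWeightedHomogeneous x B
        )).weightedHomogeneousComponent_same
    · intro y _ hy
      exact (hD.mul (weightedHomogeneousComponent_isWeightedHomogeneous y B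
        )).weightedHomogeneousComponent_ne _ (fun e => hy (add_left_cancel e).symm)
    · intro hnot
      replace hnot : weightedHomogeneousComponent w x B = 0 := by
        by_contra hc
        exact hnot ((Set.Finite.mem_toFinset _).2 hc)
      rw [hnot, mul_zero, map_zero]
  rw [h'.weightedHomogeneousComponent_ne _ (fun e => hxv (add_left_cancel e))] at hcomp
  have := congrArg (coeff d) ((mul_eq_zero.1 hcomp.symm).resolve_left hD0)
  rw [coeff_weightedHomogeneousComponent, if_pos rfl, coeff_zero] at this
  exact hd this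

/-- The main spanning theorem. -/
theorem source_subset_powSpan {q k : ℕ} (ha : 2 ≤ a) (hq : 2 ≤ q) (hk : 2 * q ≤ k + 3)
    {P : MvPolynomial (Fin a × Fin a) ℂ}
    (hP : IsWeightedHomogeneous (pointWeight a a) P (fun _ => q * a))
    (hsym : ∀ π, permPts π P = P) (hdvd : detPoly a ^ k ∣ P) :
    P ∈ powSpan a a a q := by
  obtain ⟨c, rfl⟩ : ∃ c, q = c + 2 := ⟨q - 2, by omega⟩
  obtain ⟨A, rfl⟩ := (pow_dvd_pow (detPoly a) (by omega : 2 * c + 1 ≤ k)).trans hdvd
  have hD0 : detPoly a ^ (2 * c + 1) ≠ 0 := pow_ne_zero _ (detPoly_ne_zero a)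
  set j := c * (a - 2) + a with hj
  have hA : IsWeightedHomogeneous (pointWeight a a) A (fun _ => a - 1 + j) := by
    refine isWeightedHomogeneous_of_mul hD0 ((isWeightedHomogeneous_det a).pow _) ?_
    convert hP using 1
    funext i
    obtain ⟨b, rfl⟩ : ∃ b, a = b + 2 := ⟨a - 2, by omega⟩
    simp only [hj, Pi.add_apply, Pi.smul_apply, smul_eq_mul, Nat.add_sub_cancel,
      show b + 2 - 1 = b + 1 by omega]
    ring
  have hperm : ∀ π, ((Equiv.Perm.sign π : ℤ) : MvPolynomial (Fin a × Fin a) ℂ) * permPts π A
      = A := by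
    intro π
    have h := hsym π
    rw [map_mul, map_pow, permPts_det, mul_pow, pow_succ, pow_mul, ← Int.cast_pow,
      ← Units.val_pow_eq_pow_val, Int.units_sq, Units.val_one, Int.cast_one, one_pow, one_mul]
      at h
    apply mul_left_cancel₀ hD0
    rw [← mul_assoc, mul_comm (detPoly a ^ (2 * c + 1))]
    exact h
  let S : MvPolynomial (Fin a × Fin a) ℂ →ₗ[ℂ] MvPolynomial (Fin a × Fin a) ℂ :=
    ∑ π : Equiv.Perm (Fin a), ((Equiv.Perm.sign π : ℤ) : ℂ) • (permPts π).toLinearMap
  have hS_apply : ∀ p, S p = ∑ π : Equiv.Perm (Fin a),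
      ((Equiv.Perm.sign π : ℤ) : MvPolynomial (Fin a × Fin a) ℂ) * permPts π p := by
    intro p
    rw [LinearMap.sum_apply]
    refine Finset.sum_congr rfl fun π _ => ?_
    rw [LinearMap.smul_apply, AlgHom.toLinearMap_apply, Algebra.smul_def, map_intCast]
  have hmain : ∀ x ∈ Submodule.span ℂ
      {P | ∃ y : Fin j → MvPolynomial (Fin a) ℂ, (∀ t, y t ∈ forms a 1) ∧
        ∃ p ∈ prodForms a a Finset.univ (a - 1),
          P = (∏ i ∈ Finset.univ, pt i (∏ t, y t)) * p},
      detPoly a ^ (2 * c + 1) * S x ∈ powSpan a a a (c + 2) := by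
    intro x hx
    induction hx using Submodule.span_induction with
    | zero => simp
    | add p1 p2 _ _ h1 h2 => rw [map_add, mul_add]; exact Submodule.add_mem _ h1 h2
    | smul r p _ h => rw [map_smul, mul_smul_comm]; exact Submodule.smul_mem _ r h
    | mem x hx =>
      obtain ⟨y, hy, p, hp, rfl⟩ := hx
      have hS : S ((∏ i, pt i (∏ t, y t)) * p) = (∏ i, pt i (∏ t, y t)) * S p := by
        rw [hS_apply, hS_apply, Finset.mul_sum]
        refine Finset.sum_congr rfl fun π _ => ?_
        rw [map_mul, permPts_prod π (fun _ => ∏ t, y t)]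
        ring
      rw [hS]
      have hP' : detPoly a * S p ∈ prodForms a a Finset.univ a := by
        rw [LinearMap.sum_apply, Finset.mul_sum]
        refine Submodule.sum_mem _ fun π _ => ?_
        rw [LinearMap.smul_apply, AlgHom.toLinearMap_apply, mul_smul_comm]
        refine Submodule.smul_mem _ _ ?_
        have := prodForms_mul (detPoly_mem_prodForms a) (permPts_mem_prodForms π hp)
        rwa [show 1 + (a - 1) = a by omega] at this
      have hsym' : ∀ τ, permPts τ (detPoly a * S p) = detPoly a * S p := by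
        intro τ
        rw [map_mul, permPts_det, hS_apply, map_sum, mul_comm _ (detPoly a), mul_assoc]
        congr 1
        rw [Finset.mul_sum]
        refine Fintype.sum_equiv (Equiv.mulLeft τ) _ _ fun π => ?_
        rw [map_mul, map_intCast, Equiv.coe_mulLeft, map_mul Equiv.Perm.sign, Units.val_mul,
          Int.cast_mul, mul_assoc]
        congr 2
        simp only [permPts, rename_rename]
        rfl
      have hvan : ∀ σ : Fin a → Fin a, ¬ Function.Bijective σ →
          rename (Prod.map σ id) (detPoly a * S p) = 0 := by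
        intro σ hσ
        rw [map_mul, rename_det_eq_zero σ hσ, zero_mul]
      have := mul_mem_powSpan hP' hsym' hvan (det_pow_mem_powSpan ha c j rfl y hy)
      rw [show detPoly a ^ (2 * c + 1) * ((∏ i, pt i (∏ t, y t)) * S p)
        = detPoly a * S p * (detPoly a ^ (2 * c) * ∏ i, pt i (∏ t, y t)) by ring]
      exact this
  have h := hmain A (prodForms_le_iter Finset.univ (A := a - 1) (by simp; omega) j
    (mem_prodForms_of_isWeightedHomogeneous hA))
  have hSA : S A = (Nat.factorial a : ℂ) • A := by
    rw [hS_apply, Finset.sum_congr rfl fun π _ => hperm π]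
    simp [Fintype.card_perm, Nat.cast_smul_eq_nsmul]
  rw [hSA, mul_smul_comm] at h
  exact (Submodule.smul_mem_iff _ (Nat.cast_ne_zero.2 (Nat.factorial_ne_zero a))).1 h

end Vale.Agent.P181
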