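import Mathlib

/-!
P181: two linear-algebra tools for the power map.

* an alternating-sum polarisation identity for products of sums;
* coefficients of a polynomial lie in a submodule when all its values at scalars do.
-/

namespace Vale.Agent.P181

open Finset

lemma sum_superset_neg_one {ι : Type*} [Fintype ι] [DecidableEq ι] (A : Finset ι) :
    ∑ S ∈ (Finset.univ : Finset ι).powerset.filter (fun S => A ⊆ S),
      (-1 : ℤ) ^ (Fintype.card ι - S.card) = if A = Finset.univ then 1 else 0 := by
  have h : ∑ S ∈ (Finset.univ : Finset ι).powerset.filter (fun S => A ⊆ S),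
      (-1 : ℤ) ^ (Fintype.card ι - S.card) = ∑ T ∈ Aᶜ.powerset, (-1 : ℤ) ^ T.card := by
    refine Finset.sum_nbij' (fun S => Sᶜ) (fun T => Tᶜ) ?_ ?_ ?_ ?_ ?_
    · intro S hS
      rw [Finset.mem_filter] at hS
      rw [Finset.mem_powerset]
      exact Finset.compl_subset_compl.2 hS.2
    · intro T hT
      rw [Finset.mem_powerset] at hT
      rw [Finset.mem_filter, Finset.mem_powerset]
      exact ⟨Finset.subset_univ _, Finset.subset_compl_comm.1 hT⟩
    · intro S _
      simp
    · intro T _
      simp
    · intro S _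
      rw [Finset.card_compl]
  rw [h, Finset.sum_powerset_neg_one_pow_card]
  simp

/-- Alternating sum of products of partial sums = sum over bijections. -/
lemma polarize {ι A : Type*} [Fintype ι] [DecidableEq ι] [CommRing A] (x : ι → ι → A) :
    ∑ S ∈ (Finset.univ : Finset ι).powerset,
      ((-1 : ℤ) ^ (Fintype.card ι - S.card)) • ∏ i, ∑ j ∈ S, x i j
      = ∑ π : Equiv.Perm ι, ∏ i, x i (π i) := by
  classical
  have h1 : ∀ S : Finset ι, (∏ i, ∑ j ∈ S, x i j)
      = ∑ φ : ι → ι, if Finset.univ.image φ ⊆ S then ∏ i, x i (φ i) else 0 := by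
    intro S
    rw [Finset.prod_univ_sum, ← Finset.sum_filter]
    refine Finset.sum_congr ?_ (fun _ _ => rfl)
    ext φ
    simp [Fintype.mem_piFinset, Finset.subset_iff]
  simp_rw [h1, Finset.smul_sum, smul_ite, smul_zero]
  rw [Finset.sum_comm]
  simp_rw [← Finset.sum_filter, ← Finset.sum_smul, sum_superset_neg_one]
  simp only [ite_smul, one_smul, zero_smul]
  rw [← Finset.sum_filter]
  symm
  refine Finset.sum_bij (fun π _ => (π : ι → ι)) ?_ ?_ ?_ ?_
  · intro π _
    simp [Finset.eq_univ_iff_forall]
    exact fun j => ⟨π.symm j, π.apply_symm_apply j⟩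
  · intro π _ π' _ h
    exact DFunLike.coe_injective h
  · intro φ hφ
    rw [Finset.mem_filter] at hφ
    have hs : Function.Surjective φ := fun j => by
      have hj : j ∈ Finset.univ.image φ := by
        rw [hφ.2]
        exact Finset.mem_univ j
      have := Finset.mem_image.1 hj
      exact ⟨this.choose, this.choose_spec.2⟩
    exact ⟨Equiv.ofBijective φ ⟨Finite.injective_iff_surjective.2 hs, hs⟩,
      Finset.mem_univ _, rfl⟩
  · intro π _
    rfl

/-- If all scalar values of a polynomial lie in a subspace, so do all coefficients. -/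
lemma coeff_mem_of_eval_mem {A : Type*} [CommRing A] [Algebra ℂ A] (V : Submodule ℂ A)
    (p : Polynomial A) (h : ∀ c : ℂ, p.eval (algebraMap ℂ A c) ∈ V) (k : ℕ) :
    p.coeff k ∈ V := by
  classical
  by_contra hk
  obtain ⟨φ, hφ, hφV⟩ := V.exists_le_ker_of_notMem hk
  let q : Polynomial ℂ :=
    ∑ j ∈ Finset.range (p.natDegree + 1), Polynomial.monomial j (φ (p.coeff j))
  have hq : ∀ c : ℂ, q.eval c = 0 := by
    intro c
    have h0 : φ (p.eval (algebraMap ℂ A c)) = 0 := hφV (h c)
    rw [Polynomial.eval_eq_sum_range, map_sum] at h0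
    rw [← h0, Polynomial.eval_finsetSum]
    refine Finset.sum_congr rfl fun j _ => ?_
    rw [Polynomial.eval_monomial, ← map_pow, mul_comm (p.coeff j), ← Algebra.smul_def,
      LinearMap.map_smul, smul_eq_mul, mul_comm]
  have hq0 : q = 0 := Polynomial.funext fun c => by simp [hq c]
  have : q.coeff k = φ (p.coeff k) := by
    simp only [q, Polynomial.finsetSum_coeff, Polynomial.coeff_monomial]
    rw [Finset.sum_ite_eq']
    by_cases hkd : k ∈ Finset.range (p.natDegree + 1)
    · simp [hkd]
    · simp only [hkd, if_false]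
      have : p.coeff k = 0 := Polynomial.coeff_eq_zero_of_natDegree_lt (by
        simp only [Finset.mem_range, not_lt] at hkd; omega)
      simp [this]
  rw [hq0, Polynomial.coeff_zero] at this
  exact hφ this.symm

end Vale.Agent.P181
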