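import Vale.Agent.P181.QuadNorm
import Vale.Agent.P181.CubicDual

/-!
P181: injectivity of the transpose of multiplication for `b ≥ (a - 1) ^ 2`.
-/

namespace Vale.Agent.P181

open MvPolynomial

variable {a b n : ℕ}

theorem multDual_injOn_quad (hb : (a - 1) ^ 2 ≤ b) :
    Set.InjOn (multDual a b n) (symPow a n b : Set (MvPolynomial (Fin a × Fin n) ℂ)) := by
  intro P hP Q hQ h
  by_contra hne
  have hX : P - Q ∈ symPow a n b := Submodule.sub_mem _ hP hQ
  refine fischer_self_conj_ne_zero (sub_ne_zero.2 hne) ?_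
  rw [mem_symPow_iff] at hX
  have hhom : IsWeightedHomogeneous (pointWeight a n) (map (starRingEnd ℂ) (P - Q))
      (fun _ => b) := fun d hd => hX.1 fun h => hd (by rw [coeff_map, h, map_zero])
  have hsym : ∀ π, permPts π (map (starRingEnd ℂ) (P - Q)) = map (starRingEnd ℂ) (P - Q) := by
    intro π
    rw [permPts, ← map_rename]
    exact congrArg _ (hX.2 π)
  have hmem := symm_mem_linSpan_pow_quad a b hb _ (mem_prodForms_of_isWeightedHomogeneous hhom) hsym
  have hzero : ∀ w, fischer (P - Q) (kernAt (b := b) a w) = 0 := by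
    intro w
    rw [← eval_multDual, map_sub, h, sub_self, map_zero]
  refine LinearMap.mem_ker.1 ?_
  rw [linSpan, Submodule.span_pow] at hmem
  refine (Submodule.span_le.2 ?_) hmem
  intro G hG
  rw [Set.mem_pow] at hG
  obtain ⟨f, rfl⟩ := hG
  choose y hy hfy using fun t => (f t).2
  choose c hc using fun t => exists_linForm (hy t)
  have e : (List.ofFn fun t => (f t : MvPolynomial (Fin a × Fin n) ℂ)).prod
      = kernAt a (fun p : Fin b × Fin n => c p.1 p.2) := by
    rw [List.prod_ofFn, kernAt]
    exact Finset.prod_congr rfl fun t _ => by rw [hfy t, hc t]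
  rw [SetLike.mem_coe, LinearMap.mem_ker, e]
  exact hzero _

end Vale.Agent.P181
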