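import Vale.Agent.P181.CubicNorm

/-!
P181: every symmetric form of degree `b` in each of `m` points, `b ≥ (m - 1) ^ 2`, is a
combination of products of `b` forms `∏ y(v_i)`, `y` linear.
-/

namespace Vale.Agent.P181

open MvPolynomial

variable {m n : ℕ}

/-- Degree `N + k` is spanned by `x ^ N * h`, `x` linear. -/
lemma forms_le_span_pow_mul (N k : ℕ) : forms n (N + k) ≤ Submodule.span ℂ
    {P | ∃ x ∈ forms n 1, ∃ h ∈ forms n k, P = x ^ N * h} := by
  refine (forms_le_span_prod (N + k)).trans (Submodule.span_le.2 ?_)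
  rintro _ ⟨y, hy, rfl⟩
  rw [Fin.prod_univ_add, SetLike.mem_coe]
  have hh : (∏ t : Fin k, y (Fin.natAdd N t)) ∈ forms n k := by
    simpa using forms_prod Finset.univ (fun _ : Fin k => 1) _ (fun t _ => hy _)
  have h1 : (∏ t : Fin N, y (Fin.castAdd k t)) ∈
      Submodule.span ℂ {P | ∃ x ∈ forms n 1, P = x ^ N} := by
    apply forms_le_span_pow
    simpa using forms_prod Finset.univ (fun _ : Fin N => 1) _ (fun t _ => hy _)
  generalize (∏ t : Fin N, y (Fin.castAdd k t)) = P1 at h1 ⊢
  induction h1 using Submodule.span_induction with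
  | mem p hp =>
    obtain ⟨x, hx, rfl⟩ := hp
    exact Submodule.subset_span ⟨x, hx, _, hh, rfl⟩
  | zero => simp
  | add p q _ _ h1 h2 => rw [add_mul]; exact Submodule.add_mem _ h1 h2
  | smul c p _ h => rw [smul_mul_assoc]; exact Submodule.smul_mem _ c h

/-- Products of `q` forms `∏ z(v_i)` span the `q`-th power of their span. -/
lemma linSpan_pow_le (q : ℕ) : linSpan m n ^ q ≤ Submodule.span ℂ
    {P | ∃ Q : Fin q → MvPolynomial (Fin n) ℂ, (∀ t, Q t ∈ forms n 1) ∧
      P = ∏ t, allPts m (Q t)} := by
  rw [linSpan, Submodule.span_pow]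
  refine Submodule.span_mono ?_
  intro G hG
  rw [Set.mem_pow] at hG
  obtain ⟨f, rfl⟩ := hG
  choose y hy hfy using fun t => (f t).2
  refine ⟨y, hy, ?_⟩
  rw [List.prod_ofFn]
  exact Finset.prod_congr rfl fun t _ => hfy t

lemma otherPts_succAbove (i : Fin (m + 1)) (y : MvPolynomial (Fin n) ℂ) :
    otherPts (m + 1) i y = ∏ t, pt (i.succAbove t) y := by
  rw [otherPts, ← Finset.compl_singleton, ← Fin.image_succAbove_univ,
    Finset.prod_image fun a _ b _ h => Fin.succAbove_right_injective h]

/-- The span of the tuples `(∏_k z(v_k) * w(v_i))_i`, `z` linear, `w` of degree `k`. -/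
noncomputable def tupleSpan (m n k : ℕ) :
    Submodule ℂ (Fin m → MvPolynomial (Fin m × Fin n) ℂ) :=
  Submodule.span ℂ {f | ∃ z ∈ forms n 1, ∃ w ∈ forms n k, f = fun i => allPts m z * pt i w}

lemma tupleSpan_mul {j k : ℕ} {z : MvPolynomial (Fin n) ℂ} (hz : z ∈ forms n j)
    {v : Fin m → MvPolynomial (Fin m × Fin n) ℂ} (hv : v ∈ tupleSpan m n k) :
    (fun i => pt i z) * v ∈ tupleSpan m n (k + j) := by
  induction hv using Submodule.span_induction with
  | zero => simp
  | add p q _ _ h1 h2 => rw [mul_add]; exact Submodule.add_mem _ h1 h2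
  | smul c p _ h => rw [mul_smul_comm]; exact Submodule.smul_mem _ c h
  | mem v hv =>
    obtain ⟨l, hl, w, hw, rfl⟩ := hv
    refine Submodule.subset_span ⟨l, hl, w * z, forms_mul hw hz, ?_⟩
    funext i
    rw [Pi.mul_apply, map_mul]
    ring

open Polynomial in
/-- Peeling one factor `∏_{k ≠ i} l(v_k)` off `x(v_i) ^ (m + 1)`, uniformly in `i`. -/
lemma peel_pow {x l : MvPolynomial (Fin n) ℂ} (hx : x ∈ forms n 1) (hl : l ∈ forms n 1) :
    (fun i : Fin (m + 1) => pt i (x ^ (m + 1)) * otherPts (m + 1) i l)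
      ∈ tupleSpan (m + 1) n m := by
  let H : Polynomial (Fin (m + 1) → MvPolynomial (Fin (m + 1) × Fin n) ℂ) :=
    ∏ t : Fin m, (Polynomial.C (fun i : Fin (m + 1) => pt (i.succAbove t) l) +
      Polynomial.X * Polynomial.C (fun i : Fin (m + 1) => pt (i.succAbove t) x))
  have hdeg : H.natDegree ≤ m := by
    refine (Polynomial.natDegree_prod_le _ _).trans ?_
    refine (Finset.sum_le_sum (g := fun _ => 1) fun i _ => ?_).trans (by simp)
    refine (Polynomial.natDegree_add_le _ _).trans ?_
    refine max_le (by simp) (Polynomial.natDegree_mul_le.trans ?_)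
    simp only [Polynomial.natDegree_C, add_zero]
    exact Polynomial.natDegree_X_le
  have hH0 : H.coeff 0 = fun i => otherPts (m + 1) i l := by
    funext i
    rw [Polynomial.coeff_zero_eq_eval_zero, Polynomial.eval_prod, Finset.prod_apply,
      otherPts_succAbove]
    simp
  have hG : ∀ k, ((Polynomial.C (fun i : Fin (m + 1) => pt i l) +
      Polynomial.X * Polynomial.C (fun i : Fin (m + 1) => pt i x)) ^ 1 * H).coeff k
        ∈ tupleSpan (m + 1) n 0 := by
    refine coeff_mem_of_eval_mem _ _ (fun c => ?_)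
    refine Submodule.subset_span ⟨l + c • x,
      Submodule.add_mem _ hl (Submodule.smul_mem _ c hx), 1, forms_one_mem, ?_⟩
    funext i
    simp only [H, pow_one, Polynomial.eval_mul, Polynomial.eval_prod, Polynomial.eval_add,
      Polynomial.eval_C, Polynomial.eval_X, Pi.mul_apply, Pi.add_apply, Finset.prod_apply,
      Pi.algebraMap_apply, map_one, mul_one, allPts, map_add, Algebra.smul_def, map_mul,
      AlgHom.commutes]
    rw [Fin.prod_univ_succAbove _ i]
  have hV := divide_pow (fun i : Fin (m + 1) => pt i x) (fun i : Fin (m + 1) => pt i l)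
    (tupleSpan (m + 1) n) (fun _ _ hv => tupleSpan_mul hx hv)
    (fun _ _ hv => tupleSpan_mul hl hv) 1 m H
    (fun k hk => Polynomial.coeff_eq_zero_of_natDegree_lt (lt_of_le_of_lt hdeg hk))
    hG m le_rfl
  rw [Nat.sub_self, hH0] at hV
  convert hV using 1
  funext i
  rw [Pi.mul_apply, Pi.pow_apply, map_pow, add_comm 1 m]

/-- Peeling, for every form of degree at least `m + 1`. -/
lemma peel {k : ℕ} {l u : MvPolynomial (Fin n) ℂ} (hl : l ∈ forms n 1)
    (hu : u ∈ forms n (m + 1 + k)) :
    (fun i : Fin (m + 1) => pt i u * otherPts (m + 1) i l) ∈ tupleSpan (m + 1) n (m + k) := by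
  have h := forms_le_span_pow_mul (m + 1) k hu
  clear hu
  induction h using Submodule.span_induction with
  | zero =>
    convert Submodule.zero_mem (tupleSpan (m + 1) n (m + k)) using 1
    funext i
    simp
  | add p q _ _ h1 h2 =>
    convert Submodule.add_mem _ h1 h2 using 1
    funext i
    simp only [Pi.add_apply, map_add, add_mul]
  | smul c p _ h =>
    convert Submodule.smul_mem _ c h using 1
    funext i
    simp only [Pi.smul_apply, map_smul, smul_mul_assoc]
  | mem u hu =>
    obtain ⟨x, hx, h, hh, rfl⟩ := hu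
    convert tupleSpan_mul hh (peel_pow (m := m) hx hl) using 1
    funext i
    rw [Pi.mul_apply, map_mul]
    ring

/-- `∑_i u(v_i) ∏_{k ≠ i} x(v_k) ^ m Q_1(v_k) ⋯ Q_q(v_k)`. -/
theorem shift_mem {x : MvPolynomial (Fin n) ℂ} (hx : x ∈ forms n 1) :
    ∀ (q : ℕ) (Q : Fin q → MvPolynomial (Fin n) ℂ), (∀ t, Q t ∈ forms n 1) →
      ∀ u ∈ forms n (m + q),
        ∑ i : Fin (m + 1), pt i u * (otherPts (m + 1) i x ^ m *
          ∏ t, otherPts (m + 1) i (Q t)) ∈ linSpan (m + 1) n ^ (m + q) := by
  intro q
  induction q with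
  | zero =>
    intro Q _ u hu
    simpa using sum_shift_mem (m := m + 1) hx m hu
  | succ q ih =>
    intro Q hQ u hu
    rw [← add_assoc, add_right_comm] at hu
    have h := peel (m := m) (hQ 0) hu
    have e : ∀ i : Fin (m + 1), pt i u * (otherPts (m + 1) i x ^ m *
        ∏ t, otherPts (m + 1) i (Q t)) = (pt i u * otherPts (m + 1) i (Q 0)) *
          (otherPts (m + 1) i x ^ m * ∏ t : Fin q, otherPts (m + 1) i (Q t.succ)) := by
      intro i
      rw [Fin.prod_univ_succ]
      ring
    simp only [e]
    rw [← add_assoc, pow_succ']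
    generalize hf : (fun i : Fin (m + 1) => pt i u * otherPts (m + 1) i (Q 0)) = f at h
    have e2 : ∀ i : Fin (m + 1), pt i u * otherPts (m + 1) i (Q 0) = f i := fun i =>
      congrFun hf i
    simp only [e2]
    clear e e2 hf hu
    induction h using Submodule.span_induction with
    | zero => simp
    | add p r _ _ h1 h2 =>
      simp only [Pi.add_apply, add_mul, Finset.sum_add_distrib]
      exact Submodule.add_mem _ h1 h2
    | smul c p _ h =>
      simp only [Pi.smul_apply, smul_mul_assoc, ← Finset.smul_sum]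
      exact Submodule.smul_mem _ c h
    | mem f hf =>
      obtain ⟨z, hz, w, hw, rfl⟩ := hf
      simp only [mul_assoc (allPts (m + 1) z), ← Finset.mul_sum]
      exact Submodule.mul_mem_mul (allPts_mem hz) (ih _ (fun t => hQ t.succ) w hw)

/-- `f ↦ ∑_i u(v_i) f(v_0, …, v̂_i, …, v_m)`. -/
noncomputable def insPt (u : MvPolynomial (Fin n) ℂ) :
    MvPolynomial (Fin m × Fin n) ℂ →ₗ[ℂ] MvPolynomial (Fin (m + 1) × Fin n) ℂ :=
  ∑ i : Fin (m + 1), (LinearMap.mulLeft ℂ (pt i u)).comp
    (rename (Prod.map i.succAbove (id : Fin n → Fin n))).toLinearMap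

lemma insPt_apply (u : MvPolynomial (Fin n) ℂ) (f : MvPolynomial (Fin m × Fin n) ℂ) :
    insPt u f = ∑ i : Fin (m + 1), pt i u * rename (Prod.map i.succAbove id) f := by
  simp [insPt, LinearMap.sum_apply]

lemma rename_succAbove_allPts (i : Fin (m + 1)) (y : MvPolynomial (Fin n) ℂ) :
    rename (Prod.map i.succAbove id) (allPts m y) = otherPts (m + 1) i y := by
  rw [allPts, map_prod, otherPts_succAbove]
  simp only [rename_fst_pt]

lemma insPt_norm (g : MvPolynomial (Fin n) ℂ) :
    insPt g (allPts m g) = ((m + 1 : ℕ) : ℂ) • allPts (m + 1) g := by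
  simp only [insPt_apply, rename_succAbove_allPts, pt_mul_otherPts, Finset.sum_const,
    Finset.card_univ, Fintype.card_fin, Nat.cast_smul_eq_nsmul]

/-- The spanning theorem with the quadratic bound. -/
theorem symm_mem_linSpan_pow_quad : ∀ (m b : ℕ), (m - 1) ^ 2 ≤ b →
    ∀ P ∈ prodForms m n Finset.univ b, (∀ π, permPts π P = P) → P ∈ linSpan m n ^ b := by
  intro m
  induction m with
  | zero =>
    intro b _ P hP _
    refine Submodule.span_le.2 ?_ hP
    rintro _ ⟨g, _, rfl⟩
    have := prod_allPts_mem (m := 0) (n := n) (fun _ : Fin b => 0) (fun _ => zero_mem _)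
    simpa [allPts] using this
  | succ m ih =>
    intro b hb P hP hsym
    rw [Nat.add_sub_cancel, sq] at hb
    refine Submodule.span_le.2 ?_ (symm_mem_powSpan_one hP hsym)
    rintro _ ⟨g, hg, rfl⟩
    rw [pow_one, SetLike.mem_coe]
    change allPts (m + 1) g ∈ _
    have hne : ((m + 1 : ℕ) : ℂ) ≠ 0 := Nat.cast_ne_zero.2 (Nat.succ_ne_zero m)
    rw [← Submodule.smul_mem_iff _ hne, ← insPt_norm]
    obtain ⟨q, rfl⟩ : ∃ q, b = m + q :=
      ⟨b - m, by have := Nat.le_mul_self m; omega⟩
    have hq : (m - 1) ^ 2 ≤ q := by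
      rcases m with _ | k
      · simp
      · rw [Nat.add_sub_cancel]
        nlinarith
    have key : allPts m g ∈ Submodule.span ℂ
        {P | ∃ y ∈ forms n 1, ∃ Q : Fin q → MvPolynomial (Fin n) ℂ, (∀ t, Q t ∈ forms n 1) ∧
          P = allPts m y ^ m * ∏ t, allPts m (Q t)} := by
      have h0 : allPts m g ∈ prodForms m n Finset.univ (q + m) :=
        mem_prodForms (g := fun _ => g) fun i _ => by rwa [add_comm q m]
      have h1 := prodForms_le_stepPow (Finset.univ : Finset (Fin m)) m q
        (by rw [Finset.card_univ, Fintype.card_fin]; omega) h0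
      suffices key2 : symSum m n (allPts m g) ∈ Submodule.span ℂ
          {P | ∃ y ∈ forms n 1, ∃ Q : Fin q → MvPolynomial (Fin n) ℂ, (∀ t, Q t ∈ forms n 1) ∧
            P = allPts m y ^ m * ∏ t, allPts m (Q t)} by
        have h2 : symSum m n (allPts m g) = (Nat.factorial m : ℂ) • allPts m g := by
          simp [symSum, permPts_allPts, Fintype.card_perm, Nat.cast_smul_eq_nsmul]
        rw [h2] at key2
        exact (Submodule.smul_mem_iff _ (Nat.cast_ne_zero.2 (Nat.factorial_ne_zero m))).1 key2
      clear h0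
      generalize allPts m g = N at h1 ⊢
      induction h1 using Submodule.span_induction with
      | zero => simp
      | add p r _ _ h1 h2 => rw [map_add]; exact Submodule.add_mem _ h1 h2
      | smul c p _ h => rw [map_smul]; exact Submodule.smul_mem _ c h
      | mem w hw =>
        obtain ⟨y, hy, p, hp, rfl⟩ := hw
        have hfix : ∀ π, permPts π (allPts m y ^ m) = allPts m y ^ m := fun π => by
          rw [map_pow, permPts_allPts]
        rw [show (∏ k : Fin m, pt k y) = allPts m y from rfl, symSum_mul hfix]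
        have h3 := linSpan_pow_le q
          (ih q hq _ (symSum_mem_prodForms hp) fun π => symSum_fixed π p)
        generalize symSum m n p = s at h3 ⊢
        induction h3 using Submodule.span_induction with
        | zero => simp
        | add p r _ _ h1 h2 => rw [mul_add]; exact Submodule.add_mem _ h1 h2
        | smul c p _ h => rw [mul_smul_comm]; exact Submodule.smul_mem _ c h
        | mem s hs =>
          obtain ⟨Q, hQ, rfl⟩ := hs
          exact Submodule.subset_span ⟨y, hy, Q, hQ, rfl⟩
    generalize allPts m g = N at key ⊢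
    induction key using Submodule.span_induction with
    | zero => simp
    | add p r _ _ h1 h2 => rw [map_add]; exact Submodule.add_mem _ h1 h2
    | smul c p _ h => rw [map_smul]; exact Submodule.smul_mem _ c h
    | mem w hw =>
      obtain ⟨y, hy, Q, hQ, rfl⟩ := hw
      simp only [insPt_apply, map_mul, map_pow, map_prod, rename_succAbove_allPts]
      exact shift_mem hy q Q hQ g hg

end Vale.Agent.P181
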