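import Vale.Agent.P181.Defs
import Vale.Agent.P181.Polar

/-!
P181: spanning lemmas. In particular, for at most `B` points, products over the points of
forms of degree `B` are combinations of `(∏ l(v_i)) * (products of forms of degree B - 1)`.
-/

namespace Vale.Agent.P181

open MvPolynomial

variable {m n : ℕ}

/-- A polynomial in one point, placed at the `i`-th point. -/
noncomputable abbrev pt (i : Fin m) :
    MvPolynomial (Fin n) ℂ →ₐ[ℂ] MvPolynomial (Fin m × Fin n) ℂ :=
  rename (Prod.mk i)

/-- Forms of degree `j` in one point. -/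
noncomputable abbrev forms (n j : ℕ) : Submodule ℂ (MvPolynomial (Fin n) ℂ) :=
  homogeneousSubmodule (Fin n) ℂ j

lemma forms_mul {i j : ℕ} {p q : MvPolynomial (Fin n) ℂ} (hp : p ∈ forms n i)
    (hq : q ∈ forms n j) : p * q ∈ forms n (i + j) :=
  IsHomogeneous.mul hp hq

lemma forms_pow {i : ℕ} {p : MvPolynomial (Fin n) ℂ} (hp : p ∈ forms n i) (j : ℕ) :
    p ^ j ∈ forms n (i * j) :=
  IsHomogeneous.pow hp j

lemma forms_one_mem : (1 : MvPolynomial (Fin n) ℂ) ∈ forms n 0 := isHomogeneous_one _ _

lemma forms_prod {ι : Type*} (s : Finset ι) (d : ι → ℕ) (p : ι → MvPolynomial (Fin n) ℂ)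
    (h : ∀ i ∈ s, p i ∈ forms n (d i)) : ∏ i ∈ s, p i ∈ forms n (∑ i ∈ s, d i) :=
  IsHomogeneous.prod s p d h

/-- Forms of degree `j` are spanned by products of `j` linear forms. -/
lemma forms_le_span_prod (j : ℕ) :
    forms n j ≤ Submodule.span ℂ
      {P | ∃ y : Fin j → MvPolynomial (Fin n) ℂ, (∀ t, y t ∈ forms n 1) ∧ P = ∏ t, y t} := by
  intro p hp
  rw [p.as_sum]
  refine Submodule.sum_mem _ fun d hd => ?_
  have hdeg : d.degree = j := by
    rw [mem_homogeneousSubmodule] at hp
    rw [Finsupp.degree_eq_weight_one]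
    exact hp (mem_support_iff.1 hd)
  rw [← mul_one (p.coeff d), ← smul_eq_mul, ← smul_monomial]
  refine Submodule.smul_mem _ _ (Submodule.subset_span ?_)
  clear hd hp
  induction j generalizing d with
  | zero =>
    obtain rfl : d = 0 := by simpa [Finsupp.degree_eq_zero_iff] using hdeg
    exact ⟨fun _ => 0, fun t => t.elim0, by simp⟩
  | succ j ih =>
    obtain ⟨i, hi⟩ : ∃ i, d i ≠ 0 := by
      by_contra h
      simp only [not_exists, not_not] at h
      have : d = 0 := Finsupp.ext h
      simp [this] at hdeg
    obtain ⟨d', rfl⟩ : ∃ d', d = Finsupp.single i 1 + d' :=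
      ⟨d - Finsupp.single i 1, (add_tsub_cancel_of_le (by
        intro k
        by_cases hk : k = i
        · subst hk; simp; omega
        · simp [Ne.symm hk])).symm⟩
    have hd' : d'.degree = j := by
      rw [map_add, Finsupp.degree_single] at hdeg; omega
    obtain ⟨y, hy, hP⟩ := ih d' hd'
    refine ⟨Fin.cons (X i) y, fun t => ?_, ?_⟩
    · refine Fin.cases ?_ (fun t => ?_) t
      · simpa using isHomogeneous_X ℂ i
      · simpa using hy t
    · rw [Fin.prod_univ_succ]
      simp only [Fin.cons_zero, Fin.cons_succ]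
      rw [← hP, X, monomial_mul, one_mul]

/-- Forms of degree `j` are spanned by `j`-th powers of linear forms. -/
lemma forms_le_span_pow (j : ℕ) :
    forms n j ≤ Submodule.span ℂ {P | ∃ x ∈ forms n 1, P = x ^ j} := by
  refine (forms_le_span_prod j).trans (Submodule.span_le.2 ?_)
  rintro _ ⟨y, hy, rfl⟩
  have h := polarize (fun _ k : Fin j => y k)
  have hr : ∑ π : Equiv.Perm (Fin j), ∏ i, y (π i) = (Nat.factorial j : ℂ) • ∏ t, y t := by
    simp [Equiv.prod_comp, Fintype.card_perm, Nat.cast_smul_eq_nsmul]
  rw [hr] at h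
  have hne : (Nat.factorial j : ℂ) ≠ 0 := Nat.cast_ne_zero.2 (Nat.factorial_ne_zero j)
  rw [SetLike.mem_coe, ← Submodule.smul_mem_iff _ hne, ← h]
  refine Submodule.sum_mem _ fun S _ => ?_
  apply zsmul_mem
  refine Submodule.subset_span ⟨∑ k ∈ S, y k, Submodule.sum_mem _ fun k _ => hy k, ?_⟩
  simp

/-- Products over the points in `T` of forms of degree `B`. -/
noncomputable def prodForms (m n : ℕ) (T : Finset (Fin m)) (B : ℕ) :
    Submodule ℂ (MvPolynomial (Fin m × Fin n) ℂ) :=
  Submodule.span ℂ {P | ∃ g : Fin m → MvPolynomial (Fin n) ℂ,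
    (∀ i ∈ T, g i ∈ forms n B) ∧ P = ∏ i ∈ T, pt i (g i)}

lemma mem_prodForms {T : Finset (Fin m)} {B : ℕ} {g : Fin m → MvPolynomial (Fin n) ℂ}
    (h : ∀ i ∈ T, g i ∈ forms n B) : ∏ i ∈ T, pt i (g i) ∈ prodForms m n T B :=
  Submodule.subset_span ⟨g, h, rfl⟩

/-- Adding one point. -/
lemma prodForms_insert {T : Finset (Fin m)} {r : Fin m} (hr : r ∉ T) {B : ℕ}
    {u : MvPolynomial (Fin n) ℂ} (hu : u ∈ forms n B)
    {p : MvPolynomial (Fin m × Fin n) ℂ} (hp : p ∈ prodForms m n T B) :
    pt r u * p ∈ prodForms m n (insert r T) B := by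
  induction hp using Submodule.span_induction with
  | mem p hp =>
    obtain ⟨g, hg, rfl⟩ := hp
    have := mem_prodForms (T := insert r T) (B := B) (g := Function.update g r u) (by
      intro i hi
      by_cases h : i = r
      · subst h; simpa using hu
      · rw [Function.update_of_ne h]
        exact hg i ((Finset.mem_insert.1 hi).resolve_left h))
    rw [Finset.prod_insert hr, Function.update_self] at this
    convert this using 2
    refine Finset.prod_congr rfl fun i hi => ?_
    rw [Function.update_of_ne (ne_of_mem_of_not_mem hi hr)]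
  | zero => simp
  | add p q _ _ h1 h2 => rw [mul_add]; exact Submodule.add_mem _ h1 h2
  | smul c p _ h => rw [mul_smul_comm]; exact Submodule.smul_mem _ c h

/-- The span of `(∏_{i ∈ T} y(v_i)) * p`, `y` a form of degree `j`, `p ∈ prodForms T B`. -/
noncomputable def stepSpan (m n : ℕ) (T : Finset (Fin m)) (j B : ℕ) :
    Submodule ℂ (MvPolynomial (Fin m × Fin n) ℂ) :=
  Submodule.span ℂ {P | ∃ y ∈ forms n j, ∃ p ∈ prodForms m n T B,
    P = (∏ i ∈ T, pt i y) * p}

lemma prod_pt_mul_mem {T : Finset (Fin m)} {j B : ℕ} {y : MvPolynomial (Fin n) ℂ}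
    (hy : y ∈ forms n j) {p : MvPolynomial (Fin m × Fin n) ℂ}
    (hp : p ∈ prodForms m n T B) : (∏ i ∈ T, pt i y) * p ∈ stepSpan m n T j B :=
  Submodule.subset_span ⟨y, hy, p, hp, rfl⟩

open Polynomial in
/-- The Cayley-Hamilton style identity: `x(v_r)^N * H 0` through the coefficients of
`(y + t x) * H`. -/
lemma telescope {A : Type*} [CommRing A] (x y : A) (H : A[X]) (N : ℕ) :
    x ^ (N + 1) * H.coeff 0
      = (∑ k ∈ Finset.range (N + 1), (-1) ^ k * x ^ (N - k) * y ^ k *
          ((Polynomial.C y + Polynomial.X * Polynomial.C x) * H).coeff (k + 1))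
        + (-1) ^ (N + 1) * y ^ (N + 1) * H.coeff (N + 1) := by
  induction N with
  | zero =>
    simp [add_mul, mul_assoc]
  | succ N ih =>
    rw [Finset.sum_range_succ]
    have e : ∀ k ∈ Finset.range (N + 1),
        (-1) ^ k * x ^ (N + 1 - k) * y ^ k *
            ((Polynomial.C y + Polynomial.X * Polynomial.C x) * H).coeff (k + 1)
          = x * ((-1) ^ k * x ^ (N - k) * y ^ k *
            ((Polynomial.C y + Polynomial.X * Polynomial.C x) * H).coeff (k + 1)) := by
      intro k hk
      rw [Nat.succ_sub (Nat.lt_succ_iff.1 (Finset.mem_range.1 hk)), pow_succ]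
      ring
    rw [Finset.sum_congr rfl e, ← Finset.mul_sum, pow_succ' x (N + 1), mul_assoc, ih]
    have e2 : ((Polynomial.C y + Polynomial.X * Polynomial.C x) * H).coeff (N + 1 + 1)
        = y * H.coeff (N + 1 + 1) + x * H.coeff (N + 1) := by
      rw [add_mul, Polynomial.coeff_add, Polynomial.coeff_C_mul, mul_assoc,
        Polynomial.coeff_X_mul, Polynomial.coeff_C_mul]
    rw [e2, Nat.sub_self, pow_zero]
    ring

/-- For at most `B + 1` points, degree `B + 1` factors through `∏ y(v_i)`, `y` linear. -/
theorem prodForms_le_step (T : Finset (Fin m)) :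
    ∀ B : ℕ, T.card ≤ B + 1 → prodForms m n T (B + 1) ≤ stepSpan m n T 1 B := by
  classical
  induction T using Finset.induction_on with
  | empty =>
    intro B _
    refine Submodule.span_le.2 ?_
    rintro _ ⟨g, _, rfl⟩
    have h1 : (1 : MvPolynomial (Fin m × Fin n) ℂ) ∈ prodForms m n ∅ B := by
      have := mem_prodForms (T := (∅ : Finset (Fin m))) (B := B) (g := fun _ => (0 : MvPolynomial (Fin n) ℂ))
        (by simp)
      simpa using this
    have := prod_pt_mul_mem (T := (∅ : Finset (Fin m))) (zero_mem (forms n 1)) h1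
    simpa using this
  | @insert r T hr ih =>
    intro B hB
    rw [Finset.card_insert_of_notMem hr] at hB
    refine Submodule.span_le.2 ?_
    rintro _ ⟨g, hg, rfl⟩
    rw [SetLike.mem_coe, Finset.prod_insert hr]
    set N := T.card with hN
    have hIH : (∏ i ∈ T, pt i (g i)) ∈ stepSpan m n T 1 B :=
      ih B (by omega) (mem_prodForms fun i hi => hg i (Finset.mem_insert_of_mem hi))
    have hu : g r ∈ Submodule.span ℂ
        {P | ∃ x ∈ forms n 1, ∃ h ∈ forms n (B - N), P = x ^ (N + 1) * h} := by
      have h0 : g r ∈ Submodule.span ℂ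
          {P | ∃ y : Fin (N + 1 + (B - N)) → MvPolynomial (Fin n) ℂ,
            (∀ t, y t ∈ forms n 1) ∧ P = ∏ t, y t} := by
        apply forms_le_span_prod
        have e : N + 1 + (B - N) = B + 1 := by omega
        rw [e]
        exact hg r (Finset.mem_insert_self r T)
      refine Submodule.span_le.2 ?_ h0
      rintro _ ⟨y, hy, rfl⟩
      rw [Fin.prod_univ_add, SetLike.mem_coe]
      have hh : (∏ t : Fin (B - N), y (Fin.natAdd (N + 1) t)) ∈ forms n (B - N) := by
        simpa using forms_prod Finset.univ (fun _ : Fin (B - N) => 1) _ (fun t _ => hy _)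
      have h1 : (∏ t : Fin (N + 1), y (Fin.castAdd (B - N) t)) ∈
          Submodule.span ℂ {P | ∃ x ∈ forms n 1, P = x ^ (N + 1)} := by
        apply forms_le_span_pow
        simpa using forms_prod Finset.univ (fun _ : Fin (N + 1) => 1) _ (fun t _ => hy _)
      generalize (∏ t : Fin (N + 1), y (Fin.castAdd (B - N) t)) = P1 at h1 ⊢
      induction h1 using Submodule.span_induction with
      | mem p hp =>
        obtain ⟨x, hx, rfl⟩ := hp
        exact Submodule.subset_span ⟨x, hx, _, hh, rfl⟩
      | zero => simp
      | add p q _ _ h1 h2 => rw [add_mul]; exact Submodule.add_mem _ h1 h2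
      | smul c p _ h => rw [smul_mul_assoc]; exact Submodule.smul_mem _ c h
    generalize g r = u at hu ⊢
    generalize (∏ i ∈ T, pt i (g i)) = w at hIH ⊢
    induction hu using Submodule.span_induction generalizing w with
    | zero => simp
    | add p q _ _ h1 h2 =>
      rw [map_add, add_mul]; exact Submodule.add_mem _ (h1 w hIH) (h2 w hIH)
    | smul c p _ h => rw [map_smul, smul_mul_assoc]; exact Submodule.smul_mem _ c (h w hIH)
    | mem p hp =>
      obtain ⟨x, hx, h, hh, rfl⟩ := hp
      unfold stepSpan at hIH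
      induction hIH using Submodule.span_induction with
      | zero => simp
      | add p q _ _ h1 h2 => rw [mul_add]; exact Submodule.add_mem _ h1 h2
      | smul c p _ h => rw [mul_smul_comm]; exact Submodule.smul_mem _ c h
      | mem w hw =>
        obtain ⟨y, hy, p, hp, rfl⟩ := hw
        let H : Polynomial (MvPolynomial (Fin m × Fin n) ℂ) :=
          ∏ i ∈ T, (Polynomial.C (pt i y) + Polynomial.X * Polynomial.C (pt i x))
        have hdeg : H.natDegree ≤ N := by
          refine (Polynomial.natDegree_prod_le _ _).trans ?_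
          refine (Finset.sum_le_sum (g := fun _ => 1) fun i _ => ?_).trans (by simp [hN])
          refine (Polynomial.natDegree_add_le _ _).trans ?_
          refine max_le (by simp) (Polynomial.natDegree_mul_le.trans ?_)
          simp
        have hH0 : H.coeff 0 = ∏ i ∈ T, pt i y := by
          rw [Polynomial.coeff_zero_eq_eval_zero, Polynomial.eval_prod]
          simp
        have ht := telescope (pt r x) (pt r y) H N
        rw [Polynomial.coeff_eq_zero_of_natDegree_lt (Nat.lt_succ_of_le hdeg), mul_zero,
          add_zero, hH0] at ht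
        have e : pt r (x ^ (N + 1) * h) * ((∏ i ∈ T, pt i y) * p)
            = (pt r x ^ (N + 1) * ∏ i ∈ T, pt i y) * (pt r h * p) := by
          rw [map_mul, map_pow]; ring
        rw [e, ht, Finset.sum_mul]
        refine Submodule.sum_mem _ fun k hk => ?_
        have hk' : k ≤ N := Nat.lt_succ_iff.1 (Finset.mem_range.1 hk)
        have hq : pt r (x ^ (N - k) * y ^ k * h) * p ∈ prodForms m n (insert r T) B := by
          refine prodForms_insert hr ?_ hp
          have := forms_mul (forms_mul (forms_pow hx (N - k)) (forms_pow hy k)) hh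
          convert this using 2
          omega
        have hG : ((Polynomial.C (pt r y) + Polynomial.X * Polynomial.C (pt r x)) * H).coeff
            (k + 1) ∈ Submodule.span ℂ
              {P | ∃ l ∈ forms n 1, P = ∏ i ∈ insert r T, pt i l} := by
          refine coeff_mem_of_eval_mem _ _ (fun c => ?_) _
          refine Submodule.subset_span ⟨y + c • x,
            Submodule.add_mem _ hy (Submodule.smul_mem _ c hx), ?_⟩
          rw [← Finset.prod_insert (f := fun i =>
            (Polynomial.C (pt i y) + Polynomial.X * Polynomial.C (pt i x))) hr,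
            Polynomial.eval_prod]
          refine Finset.prod_congr rfl fun i _ => ?_
          rw [Polynomial.eval_add, Polynomial.eval_mul, Polynomial.eval_C, Polynomial.eval_X,
            Polynomial.eval_C, map_add, map_smul, Algebra.smul_def]
        have e2 : (-1 : MvPolynomial (Fin m × Fin n) ℂ) ^ k * pt r x ^ (N - k) * pt r y ^ k *
            ((Polynomial.C (pt r y) + Polynomial.X * Polynomial.C (pt r x)) * H).coeff (k + 1)
              * (pt r h * p)
            = ((-1 : ℂ) ^ k) • (((Polynomial.C (pt r y) + Polynomial.X * Polynomial.C (pt r x))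
              * H).coeff (k + 1) * (pt r (x ^ (N - k) * y ^ k * h) * p)) := by
          simp only [Algebra.smul_def, map_mul, map_pow, map_neg, map_one]
          ring
        rw [e2]
        refine Submodule.smul_mem _ _ ?_
        generalize ((Polynomial.C (pt r y) + Polynomial.X * Polynomial.C (pt r x)) * H).coeff
          (k + 1) = G at hG ⊢
        induction hG using Submodule.span_induction with
        | mem l hl =>
          obtain ⟨l', hl', rfl⟩ := hl
          exact prod_pt_mul_mem hl' hq
        | zero => simp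
        | add p q _ _ h1 h2 => rw [add_mul]; exact Submodule.add_mem _ h1 h2
        | smul c p _ h => rw [smul_mul_assoc]; exact Submodule.smul_mem _ c h

/-- Iterated form: degree `A + j` factors through `∏_i (y_1 ⋯ y_j)(v_i)`, `y_t` linear. -/
theorem prodForms_le_iter (T : Finset (Fin m)) {A : ℕ} (hA : T.card ≤ A + 1) (j : ℕ) :
    prodForms m n T (A + j) ≤ Submodule.span ℂ
      {P | ∃ y : Fin j → MvPolynomial (Fin n) ℂ, (∀ t, y t ∈ forms n 1) ∧
        ∃ p ∈ prodForms m n T A, P = (∏ i ∈ T, pt i (∏ t, y t)) * p} := by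
  induction j with
  | zero =>
    intro p hp
    refine Submodule.subset_span ⟨fun _ => 0, fun t => t.elim0, p, hp, ?_⟩
    simp
  | succ j ih =>
    rw [← add_assoc]
    refine (prodForms_le_step T (A + j) (by omega)).trans (Submodule.span_le.2 ?_)
    rintro _ ⟨y, hy, p, hp, rfl⟩
    have hp' := ih hp
    rw [SetLike.mem_coe]
    clear hp
    induction hp' using Submodule.span_induction with
    | mem w hw =>
      obtain ⟨z, hz, q, hq, rfl⟩ := hw
      have hcons : ∀ t, (Fin.cons y z : Fin (j + 1) → _) t ∈ forms n 1 := fun t => by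
        refine Fin.cases ?_ (fun k => ?_) t
        · simpa using hy
        · simpa using hz k
      refine Submodule.subset_span ⟨Fin.cons y z, hcons, q, hq, ?_⟩
      rw [← mul_assoc, ← Finset.prod_mul_distrib, Fin.prod_univ_succ]
      simp only [Fin.cons_zero, Fin.cons_succ, map_mul]
    | zero => simp
    | add p q _ _ h1 h2 => rw [mul_add]; exact Submodule.add_mem _ h1 h2
    | smul c p _ h => rw [mul_smul_comm]; exact Submodule.smul_mem _ c h

end Vale.Agent.P181
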